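import Vale.Agent.P101.Lit.Defs

/-! P101: basic maps between the stages. -/

namespace Vale.Agent.P101.Lit

open scoped unitInterval ComplexOrder

variable {B : Type*} [CStarAlgebra B] [PartialOrder B] [StarOrderedRing B] {p q : ℕ}

theorem continuous_entry (x y : Ix p q) (t : I) :
    Continuous fun f : Amb B p q => f t x y :=
  (continuous_apply_apply x y).comp (ContinuousEvalConst.continuous_eval_const t)

instance isClosed_St : IsClosed (St B p q : Set (Amb B p q)) := by
  rcases isEmpty_or_nonempty (Ix p q) with h | ⟨⟨i₀, j₀⟩⟩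
  · convert isClosed_univ
    refine Set.eq_univ_of_forall fun f =>
      ⟨⟨fun _ _ => 0, fun x => isEmptyElim x⟩, ⟨fun _ _ => 0, fun x => isEmptyElim x⟩⟩
  have e : (St B p q : Set (Amb B p q)) =
      (⋂ x : Ix p q, ⋂ y : Ix p q,
        {f | f 0 x y = if x.2 = y.2 then f 0 (x.1, j₀) (y.1, j₀) else 0}) ∩
      ⋂ x : Ix p q, ⋂ y : Ix p q,
        {f | f 1 x y = if x.1 = y.1 then f 1 (i₀, x.2) (i₀, y.2) else 0} := by
    ext f
    simp only [Set.mem_inter_iff, Set.mem_iInter, Set.mem_ofPred_eq]
    constructor
    · rintro ⟨⟨a, ha⟩, b, hb⟩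
      refine ⟨fun x y => ?_, fun x y => ?_⟩
      · exact (ha x y).trans (congrArg (fun z => if x.2 = y.2 then z else 0) ((ha (x.1, j₀) (y.1, j₀)).trans (if_pos rfl)).symm)
      · exact (hb x y).trans (congrArg (fun z => if x.1 = y.1 then z else 0) ((hb (i₀, x.2) (i₀, y.2)).trans (if_pos rfl)).symm)
    · intro h
      exact ⟨⟨fun i i' => f 0 (i, j₀) (i', j₀), h.1⟩, ⟨fun j j' => f 1 (i₀, j) (i₀, j'), h.2⟩⟩
  rw [e]
  refine (isClosed_iInter fun x => isClosed_iInter fun y => ?_).inter
    (isClosed_iInter fun x => isClosed_iInter fun y => ?_)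
  · refine isClosed_eq (continuous_entry x y 0) ?_
    split_ifs
    · exact continuous_entry _ _ 0
    · exact continuous_const
  · refine isClosed_eq (continuous_entry x y 1) ?_
    split_ifs
    · exact continuous_entry _ _ 1
    · exact continuous_const

noncomputable instance instCStarAlgebraSt : CStarAlgebra (St B p q) :=
  StarSubalgebra.cstarAlgebra _

variable (B p q)

/-- A constant diagonal element. -/
noncomputable def cst : B →⋆ₐ[ℂ] St B p q where
  toFun b := ⟨ContinuousMap.const I (CStarMatrix.ofMatrix <| Matrix.of fun x y => if x = y then b else 0),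
    ⟨fun i i' => if i = i' then b else 0, fun x y => by
      by_cases h : x = y
      · simp [h]
      · by_cases h2 : x.2 = y.2
        · have : x.1 ≠ y.1 := fun h1 => h (Prod.ext h1 h2)
          simp [h, h2, this]
        · simp [h, h2]⟩,
    ⟨fun i i' => if i = i' then b else 0, fun x y => by
      by_cases h : x = y
      · simp [h]
      · by_cases h1 : x.1 = y.1
        · have : x.2 ≠ y.2 := fun h2 => h (Prod.ext h1 h2)
          simp [h, h1, this]
        · simp [h, h1]⟩⟩
  map_one' := Subtype.ext (ContinuousMap.ext fun t => CStarMatrix.ext fun x y => by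
    simp [CStarMatrix.one_apply])
  map_mul' b c := Subtype.ext (ContinuousMap.ext fun t => CStarMatrix.ext fun x y => by
    simp [CStarMatrix.mul_apply])
  map_zero' := Subtype.ext (ContinuousMap.ext fun t => CStarMatrix.ext fun x y => by simp)
  map_add' b c := Subtype.ext (ContinuousMap.ext fun t => CStarMatrix.ext fun x y => by
    show (if x = y then b + c else 0) = (if x = y then b else 0) + (if x = y then c else 0)
    split_ifs <;> simp [*])
  commutes' r := Subtype.ext (ContinuousMap.ext fun t => CStarMatrix.ext fun x y => by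
    simp [Algebra.algebraMap_eq_smul_one, CStarMatrix.one_apply])
  map_star' b := Subtype.ext (ContinuousMap.ext fun t => CStarMatrix.ext fun x y => by
    by_cases h : x = y
    · simp [CStarMatrix.star_apply, h]
    · simp [CStarMatrix.star_apply, h, Ne.symm h])

/-- Scalar elements of a stage, as elements with coefficients in `B`. -/
noncomputable def lift : St ℂ p q →⋆ₐ[ℂ] St B p q where
  toFun g := ⟨⟨fun t => CStarMatrix.ofMatrix <| Matrix.of fun x y => algebraMap ℂ B ((g : Amb ℂ p q) t x y),
      continuous_pi fun x => continuous_pi fun y => (continuous_algebraMap ℂ B).comp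
        ((continuous_apply_apply x y).comp (g : Amb ℂ p q).continuous)⟩,
    by
      obtain ⟨a, ha⟩ := g.2.1
      exact ⟨fun i i' => algebraMap ℂ B (a i i'), fun x y => by
        refine (congrArg (algebraMap ℂ B) (ha x y)).trans ?_
        split_ifs <;> simp⟩,
    by
      obtain ⟨a, ha⟩ := g.2.2
      exact ⟨fun i i' => algebraMap ℂ B (a i i'), fun x y => by
        refine (congrArg (algebraMap ℂ B) (ha x y)).trans ?_
        split_ifs <;> simp⟩⟩
  map_one' := Subtype.ext (ContinuousMap.ext fun t => CStarMatrix.ext fun x y => by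
    simp [CStarMatrix.one_apply, apply_ite (algebraMap ℂ B)])
  map_mul' b c := Subtype.ext (ContinuousMap.ext fun t => CStarMatrix.ext fun x y => by
    show algebraMap ℂ B ((((b : Amb ℂ p q) t) * ((c : Amb ℂ p q) t)) x y) =
      ∑ z, algebraMap ℂ B ((b : Amb ℂ p q) t x z) * algebraMap ℂ B ((c : Amb ℂ p q) t z y)
    simp [CStarMatrix.mul_apply])
  map_zero' := Subtype.ext (ContinuousMap.ext fun t => CStarMatrix.ext fun x y => by simp)
  map_add' b c := Subtype.ext (ContinuousMap.ext fun t => CStarMatrix.ext fun x y => by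
    show algebraMap ℂ B ((b : Amb ℂ p q) t x y + (c : Amb ℂ p q) t x y) = _
    rw [map_add]; rfl)
  commutes' r := Subtype.ext (ContinuousMap.ext fun t => CStarMatrix.ext fun x y => by
    simp only [Algebra.algebraMap_eq_smul_one]
    simp [CStarMatrix.one_apply, apply_ite (algebraMap ℂ B), Algebra.smul_def])
  map_star' b := Subtype.ext (ContinuousMap.ext fun t => CStarMatrix.ext fun x y => by
    show algebraMap ℂ B (star ((b : Amb ℂ p q) t y x)) = star (algebraMap ℂ B ((b : Amb ℂ p q) t y x))
    exact algebraMap_star_comm _)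

variable {B p q}

@[simp] theorem cst_apply (b : B) (t : I) (x y : Ix p q) :
    (cst B p q b : Amb B p q) t x y = if x = y then b else 0 := rfl

@[simp] theorem lift_apply (g : St ℂ p q) (t : I) (x y : Ix p q) :
    (lift B p q g : Amb B p q) t x y = algebraMap ℂ B ((g : Amb ℂ p q) t x y) := rfl

theorem pp_pos (i : ℕ) : 0 < pp i := by
  induction i with
  | zero => norm_num [pp]
  | succ i ih => exact Nat.mul_pos (by simp [kl]) ih

theorem qq_pos (i : ℕ) : 0 < qq i := by
  induction i with
  | zero => norm_num [qq]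
  | succ i ih => exact Nat.mul_pos (by simp [kr]) ih

theorem expo_bounds (i : ℕ) : 2 ≤ (expo i).1 ∧ 1 ≤ (expo i).2 := by
  induction i with
  | zero => simp [expo]
  | succ i ih => simp only [expo]; omega

theorem pp_eq (i : ℕ) : pp i = 2 ^ (expo i).1 := by
  induction i with
  | zero => norm_num [pp, expo]
  | succ i ih => rw [pp, ih, kl, ← pow_add]; congr 1; simp only [expo]; omega

theorem qq_eq (i : ℕ) : qq i = 3 ^ (expo i).2 := by
  induction i with
  | zero => norm_num [qq, expo]
  | succ i ih => rw [qq, ih, kr, ← pow_add]; congr 1; simp only [expo]; omega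

/-- The hypotheses of Jiang and Su hold at each step. -/
theorem step_conditions (i : ℕ) :
    2 * qq i < kl i ∧ 2 * pp i < kr i ∧
      Nat.Coprime (pp (i + 1)) (qq (i + 1)) := by
  obtain ⟨ha, hb⟩ := expo_bounds i
  refine ⟨?_, ?_, ?_⟩
  · rw [qq_eq, kl, pow_succ, pow_mul, mul_comm (_ ^ _) 2]
    exact Nat.mul_lt_mul_of_pos_left (Nat.pow_lt_pow_left (by norm_num) (by omega)) (by norm_num)
  · rw [pp_eq, kr]
    generalize (expo i).1 = a at ha ⊢
    induction a, ha using Nat.le_induction with
    | base => norm_num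
    | succ n hn ih => rw [pow_succ, pow_succ]; omega
  · rw [pp_eq, qq_eq]
    exact (Nat.coprime_pow_left_iff (by have := (expo_bounds (i+1)).1; omega) _ _).2
      ((Nat.coprime_pow_right_iff (by have := (expo_bounds (i+1)).2; omega) _ _).2 (by norm_num))

/-- The residues giving the numbers of nonconstant eigenvalue functions are nonzero. -/
theorem step_residues (i : ℕ) : 0 < kl i % qq i ∧ 0 < kr i % pp i := by
  obtain ⟨ha, hb⟩ := expo_bounds i
  rw [pp_eq, qq_eq, kl, kr]
  refine ⟨Nat.pos_of_ne_zero fun h => ?_, Nat.pos_of_ne_zero fun h => ?_⟩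
  · have h3 : 3 ∣ 2 ^ (2 * (expo i).2 + 1) :=
      (dvd_pow_self 3 (by omega)).trans (Nat.dvd_of_mod_eq_zero h)
    exact absurd (Nat.prime_three.dvd_of_dvd_pow h3) (by norm_num)
  · have h2 : 2 ∣ 3 ^ (expo i).1 :=
      (dvd_pow_self 2 (by omega)).trans (Nat.dvd_of_mod_eq_zero h)
    exact absurd (Nat.prime_two.dvd_of_dvd_pow h2) (by norm_num)

end Vale.Agent.P101.Lit
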