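import Mathlib
import Vale.Agent.P101.SlotProd

/-!
P101: order zero maps `φ` on matrix algebras, given by `φ x φ y = φ 1 φ (x y)`, their products, and
the join of two commuting order zero maps.
-/

open scoped Kronecker
open Matrix

set_option linter.unusedSectionVars false

namespace Vale.Agent.P101.Lit

/-- A star preserving linear map with `φ x * φ y = φ 1 * φ (x * y)`. -/
structure OZ (ι : Type*) [Fintype ι] [DecidableEq ι] (R : Type*) [Ring R] [StarRing R]
    [Algebra ℂ R] where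
  f : Matrix ι ι ℂ →ₗ[ℂ] R
  star_map : ∀ x, star (f x) = f xᴴ
  mul_map : ∀ x y, f x * f y = f 1 * f (x * y)

variable {ι κ ι' : Type*} [Fintype ι] [DecidableEq ι] [Fintype κ] [DecidableEq κ]
  [Fintype ι'] [DecidableEq ι']
variable {R : Type*} [Ring R] [StarRing R] [Algebra ℂ R] [StarModule ℂ R]

/-- The ranges commute. -/
def Comm (φ : OZ ι R) (ψ : OZ κ R) : Prop := ∀ x y, Commute (φ.f x) (ψ.f y)

lemma Comm.symm {φ : OZ ι R} {ψ : OZ κ R} (h : Comm φ ψ) : Comm ψ φ := fun x y => (h y x).symm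

omit [StarModule ℂ R] in
/-- Reorder a product of two pairs. -/
lemma mul_mul_mul_swap {a b x y : R} (h : Commute x b) : a * x * (b * y) = a * b * (x * y) := by
  calc a * x * (b * y) = a * (x * b) * y := by noncomm_ring
    _ = a * (b * x) * y := by rw [h.eq]
    _ = a * b * (x * y) := by noncomm_ring

namespace OZ

variable (φ : OZ ι R) (ψ : OZ κ R)

lemma star_one : star (φ.f 1) = φ.f 1 := by rw [φ.star_map, conjTranspose_one]

lemma commute_one (x : Matrix ι ι ℂ) : Commute (φ.f 1) (φ.f x) :=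
  show φ.f 1 * φ.f x = φ.f x * φ.f 1 by rw [φ.mul_map x 1, mul_one]

/-! ### Products -/

noncomputable def prodLin : Matrix (ι × κ) (ι × κ) ℂ →ₗ[ℂ] R where
  toFun Z := ∑ p, ∑ q, Z p q • (φ.f (single p.1 q.1 1) * ψ.f (single p.2 q.2 1))
  map_add' Z W := by simp only [Matrix.add_apply, add_smul, Finset.sum_add_distrib]
  map_smul' c Z := by
    simp only [Matrix.smul_apply, smul_eq_mul, Finset.smul_sum, smul_smul, RingHom.id_apply]

lemma sum_single (x : Matrix ι ι ℂ) : φ.f x = ∑ i, ∑ j, x i j • φ.f (single i j 1) := by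
  conv_lhs => rw [matrix_eq_sum_single x]
  simp only [map_sum, ← map_smul, Matrix.smul_single, smul_eq_mul, mul_one]

lemma prodLin_kron (x : Matrix ι ι ℂ) (y : Matrix κ κ ℂ) :
    prodLin φ ψ (x ⊗ₖ y) = φ.f x * ψ.f y := by
  rw [sum_single φ x, sum_single ψ y, Finset.sum_mul_sum]
  simp only [prodLin, LinearMap.coe_mk, AddHom.coe_mk, Fintype.sum_prod_type, Finset.sum_mul_sum,
    kroneckerMap_apply, smul_mul_smul_comm]

/-- Linear maps on `M_ι ⊗ M_κ` agreeing on elementary tensors are equal. -/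
lemma ext_kron {M : Type*} [AddCommMonoid M] [Module ℂ M]
    {a b : Matrix (ι × κ) (ι × κ) ℂ →ₗ[ℂ] M} (h : ∀ x y, a (x ⊗ₖ y) = b (x ⊗ₖ y))
    (Z : Matrix (ι × κ) (ι × κ) ℂ) : a Z = b Z := by
  conv_lhs => rw [matrix_eq_sum_single Z]
  conv_rhs => rw [matrix_eq_sum_single Z]
  simp only [map_sum]
  refine Finset.sum_congr rfl fun p _ => Finset.sum_congr rfl fun q _ => ?_
  have : single p q (Z p q) =
      (single p.1 q.1 (Z p q) : Matrix ι ι ℂ) ⊗ₖ (single p.2 q.2 1 : Matrix κ κ ℂ) := by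
    rw [single_kronecker_single, mul_one]
  rw [this, h]

variable {φ ψ} (hc : Comm φ ψ)
include hc

lemma left_mul_prod (x : Matrix ι ι ℂ) (Z) :
    φ.f x * prodLin φ ψ Z = φ.f 1 * prodLin φ ψ ((x ⊗ₖ (1 : Matrix κ κ ℂ)) * Z) := by
  refine ext_kron (a := (LinearMap.mulLeft ℂ (φ.f x)).comp (prodLin φ ψ))
    (b := (LinearMap.mulLeft ℂ (φ.f 1)).comp ((prodLin φ ψ).comp
      (LinearMap.mulLeft ℂ (x ⊗ₖ (1 : Matrix κ κ ℂ))))) (fun a b => ?_) Z
  simp only [LinearMap.comp_apply, LinearMap.mulLeft_apply, ← mul_kronecker_mul, one_mul,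
    prodLin_kron, ← mul_assoc, φ.mul_map x a]

lemma prod_mul_left (x : Matrix ι ι ℂ) (Z) :
    prodLin φ ψ Z * φ.f x = φ.f 1 * prodLin φ ψ (Z * (x ⊗ₖ (1 : Matrix κ κ ℂ))) := by
  refine ext_kron (a := (LinearMap.mulRight ℂ (φ.f x)).comp (prodLin φ ψ))
    (b := (LinearMap.mulLeft ℂ (φ.f 1)).comp ((prodLin φ ψ).comp
      (LinearMap.mulRight ℂ (x ⊗ₖ (1 : Matrix κ κ ℂ))))) (fun a b => ?_) Z
  simp only [LinearMap.comp_apply, LinearMap.mulLeft_apply, LinearMap.mulRight_apply,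
    ← mul_kronecker_mul, mul_one, prodLin_kron]
  rw [mul_assoc, ← (hc x b).eq, ← mul_assoc, φ.mul_map a x, mul_assoc]

lemma right_mul_prod (y : Matrix κ κ ℂ) (Z) :
    ψ.f y * prodLin φ ψ Z = ψ.f 1 * prodLin φ ψ (((1 : Matrix ι ι ℂ) ⊗ₖ y) * Z) := by
  refine ext_kron (a := (LinearMap.mulLeft ℂ (ψ.f y)).comp (prodLin φ ψ))
    (b := (LinearMap.mulLeft ℂ (ψ.f 1)).comp ((prodLin φ ψ).comp
      (LinearMap.mulLeft ℂ ((1 : Matrix ι ι ℂ) ⊗ₖ y)))) (fun a b => ?_) Z
  simp only [LinearMap.comp_apply, LinearMap.mulLeft_apply, ← mul_kronecker_mul, one_mul,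
    prodLin_kron]
  rw [← mul_assoc, ← (hc a y).eq, mul_assoc, ψ.mul_map y b, ← mul_assoc, (hc a 1).eq, mul_assoc]

lemma prod_mul_right (y : Matrix κ κ ℂ) (Z) :
    prodLin φ ψ Z * ψ.f y = ψ.f 1 * prodLin φ ψ (Z * ((1 : Matrix ι ι ℂ) ⊗ₖ y)) := by
  refine ext_kron (a := (LinearMap.mulRight ℂ (ψ.f y)).comp (prodLin φ ψ))
    (b := (LinearMap.mulLeft ℂ (ψ.f 1)).comp ((prodLin φ ψ).comp
      (LinearMap.mulRight ℂ ((1 : Matrix ι ι ℂ) ⊗ₖ y)))) (fun a b => ?_) Z
  simp only [LinearMap.comp_apply, LinearMap.mulLeft_apply, LinearMap.mulRight_apply,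
    ← mul_kronecker_mul, mul_one, prodLin_kron]
  rw [mul_assoc, ψ.mul_map b y, ← mul_assoc, (hc a 1).eq, mul_assoc]

lemma prodLin_mul (Z W) :
    prodLin φ ψ Z * prodLin φ ψ W = φ.f 1 * ψ.f 1 * prodLin φ ψ (Z * W) := by
  refine ext_kron (a := (LinearMap.mulRight ℂ (prodLin φ ψ W)).comp (prodLin φ ψ))
    (b := (LinearMap.mulLeft ℂ (φ.f 1 * ψ.f 1)).comp ((prodLin φ ψ).comp
      (LinearMap.mulRight ℂ W))) (fun a b => ?_) Z
  simp only [LinearMap.comp_apply, LinearMap.mulLeft_apply, LinearMap.mulRight_apply]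
  rw [prodLin_kron, mul_assoc, right_mul_prod hc, ← mul_assoc, (hc a 1).eq, mul_assoc,
    left_mul_prod hc, ← mul_assoc, ← (hc 1 1).eq, ← mul_assoc (a ⊗ₖ _), ← mul_kronecker_mul,
    mul_one, one_mul]

lemma prodLin_star (Z) : star (prodLin φ ψ Z) = prodLin φ ψ Zᴴ := by
  let L : Matrix (ι × κ) (ι × κ) ℂ →ₗ[ℂ] R :=
    { toFun := fun W => star (prodLin φ ψ Wᴴ)
      map_add' := fun V W => by simp
      map_smul' := fun c W => by simp [star_smul] }
  have := ext_kron (a := L) (b := prodLin φ ψ) (fun a b => ?_) Zᴴ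
  · simpa [L] using this
  · show star (prodLin φ ψ (a ⊗ₖ b)ᴴ) = _
    rw [conjTranspose_kronecker, prodLin_kron, prodLin_kron, star_mul, φ.star_map, ψ.star_map,
      conjTranspose_conjTranspose, conjTranspose_conjTranspose, (hc a b).eq]

/-- The product of two commuting order zero maps. -/
noncomputable def prod : OZ (ι × κ) R where
  f := prodLin φ ψ
  star_map := prodLin_star hc
  mul_map Z W := by
    rw [prodLin_mul hc, ← one_kronecker_one (α := ℂ) (m := ι) (n := κ), prodLin_kron]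

lemma prod_kron (x : Matrix ι ι ℂ) (y : Matrix κ κ ℂ) :
    (prod hc).f (x ⊗ₖ y) = φ.f x * ψ.f y := prodLin_kron φ ψ x y

lemma prod_one : (prod hc).f 1 = φ.f 1 * ψ.f 1 := by
  rw [← one_kronecker_one (α := ℂ) (m := ι) (n := κ), prod_kron hc]

lemma commute_prod {z : R} (h1 : ∀ x, Commute z (φ.f x)) (h2 : ∀ y, Commute z (ψ.f y))
    (Z : Matrix (ι × κ) (ι × κ) ℂ) : Commute z ((prod hc).f Z) :=
  Commute.sum_right _ _ _ fun _ _ => Commute.sum_right _ _ _ fun _ _ =>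
    ((h1 _).mul_right (h2 _)).smul_right _

end OZ

/-! ### The join -/

namespace Join

/-- The flip matrix on `ι × ι`. -/
noncomputable def S : Matrix (ι × ι) (ι × ι) ℂ :=
  Matrix.of fun p q => if p.swap = q then 1 else 0

lemma S_mul_apply (Z : Matrix (ι × ι) (ι × ι) ℂ) (p q : ι × ι) : (S (ι := ι) * Z) p q = Z p.swap q := by
  simp [S, Matrix.mul_apply]

lemma mul_S_apply (Z : Matrix (ι × ι) (ι × ι) ℂ) (p q : ι × ι) : (Z * S (ι := ι)) p q = Z p q.swap := by
  rw [Matrix.mul_apply, Finset.sum_eq_single q.swap]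
  · simp [S]
  · intro r _ hr
    have : r.swap ≠ q := fun e => hr (by rw [← e, Prod.swap_swap])
    simp [S, this]
  · simp

lemma S_mul_S : S * S = (1 : Matrix (ι × ι) (ι × ι) ℂ) := by
  ext p q
  rw [S_mul_apply]
  simp [S, one_apply]

lemma conjTranspose_S : (S : Matrix (ι × ι) (ι × ι) ℂ)ᴴ = S := by
  ext p q
  have : q.swap = p ↔ p.swap = q :=
    ⟨fun e => by rw [← e, Prod.swap_swap], fun e => by rw [← e, Prod.swap_swap]⟩
  by_cases h : p.swap = q <;> simp [S, conjTranspose_apply, h, this]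

variable (x y : Matrix ι ι ℂ)

lemma S_left : S * (x ⊗ₖ (1 : Matrix ι ι ℂ)) = ((1 : Matrix ι ι ℂ) ⊗ₖ x) * S := by
  ext p q
  rw [S_mul_apply, mul_S_apply]
  simp [kroneckerMap_apply, one_apply, mul_comm]

lemma S_right : S * ((1 : Matrix ι ι ℂ) ⊗ₖ x) = (x ⊗ₖ (1 : Matrix ι ι ℂ)) * S := by
  ext p q
  rw [S_mul_apply, mul_S_apply]
  simp [kroneckerMap_apply, one_apply, mul_comm]

/-- The commutator with the flip. -/
noncomputable def C : Matrix ι ι ℂ →ₗ[ℂ] Matrix (ι × ι) (ι × ι) ℂ where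
  toFun x := S * (x ⊗ₖ (1 : Matrix ι ι ℂ)) - (x ⊗ₖ (1 : Matrix ι ι ℂ)) * S
  map_add' a b := by rw [add_kronecker, mul_add, add_mul]; abel
  map_smul' c a := by
    rw [smul_kronecker, mul_smul_comm, smul_mul_assoc, RingHom.id_apply, smul_sub]

lemma C_eq : C x = (((1 : Matrix ι ι ℂ) ⊗ₖ x) - x ⊗ₖ (1 : Matrix ι ι ℂ)) * S := by
  rw [sub_mul, ← S_left]; rfl

lemma C_one : C (1 : Matrix ι ι ℂ) = 0 := by rw [C_eq, sub_self, zero_mul]

lemma conjTranspose_C : (C x)ᴴ = -C xᴴ := by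
  simp only [C, LinearMap.coe_mk, AddHom.coe_mk]
  rw [conjTranspose_sub, conjTranspose_mul, conjTranspose_mul, conjTranspose_S,
    conjTranspose_kronecker, conjTranspose_one]
  abel

lemma C_left : (x ⊗ₖ (1 : Matrix ι ι ℂ)) * C y + C x * (y ⊗ₖ (1 : Matrix ι ι ℂ)) = C (x * y) := by
  have e : (x * y) ⊗ₖ (1 : Matrix ι ι ℂ) =
      (x ⊗ₖ (1 : Matrix ι ι ℂ)) * (y ⊗ₖ (1 : Matrix ι ι ℂ)) := by
    rw [← mul_kronecker_mul, one_mul]
  simp only [C, LinearMap.coe_mk, AddHom.coe_mk]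
  rw [e]; noncomm_ring

lemma C_right : ((1 : Matrix ι ι ℂ) ⊗ₖ x) * C y + C x * ((1 : Matrix ι ι ℂ) ⊗ₖ y) = C (x * y) := by
  rw [C_eq, C_eq, C_eq, mul_assoc _ S, S_right]
  have e1 : (x * y) ⊗ₖ (1 : Matrix ι ι ℂ) =
      (x ⊗ₖ (1 : Matrix ι ι ℂ)) * (y ⊗ₖ (1 : Matrix ι ι ℂ)) := by
    rw [← mul_kronecker_mul, one_mul]
  have e2 : (1 : Matrix ι ι ℂ) ⊗ₖ (x * y) =
      ((1 : Matrix ι ι ℂ) ⊗ₖ x) * ((1 : Matrix ι ι ℂ) ⊗ₖ y) := by
    rw [← mul_kronecker_mul, one_mul]
  rw [e1, e2]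
  noncomm_ring

lemma C_cross : x ⊗ₖ y + y ⊗ₖ x - C x * C y =
    (x * y) ⊗ₖ (1 : Matrix ι ι ℂ) + (1 : Matrix ι ι ℂ) ⊗ₖ (x * y) := by
  have e : C x * C y = (((1 : Matrix ι ι ℂ) ⊗ₖ x) - x ⊗ₖ (1 : Matrix ι ι ℂ)) *
      ((y ⊗ₖ (1 : Matrix ι ι ℂ)) - (1 : Matrix ι ι ℂ) ⊗ₖ y) := by
    rw [C_eq, C_eq, mul_assoc, ← mul_assoc S, mul_sub S, S_left, S_right, ← sub_mul, mul_assoc,
      S_mul_S, mul_one]
  rw [e]
  simp only [sub_mul, mul_sub, ← mul_kronecker_mul, one_mul, mul_one]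
  abel

end Join

namespace OZ

variable {φ ψ : OZ ι R} (hc : Comm φ ψ)
include hc

noncomputable def joinLin : Matrix ι ι ℂ →ₗ[ℂ] R :=
  (LinearMap.mulLeft ℂ (φ.f 1)).comp φ.f + (LinearMap.mulLeft ℂ (ψ.f 1)).comp ψ.f +
    Complex.I • (prod hc).f.comp Join.C

lemma joinLin_apply (x : Matrix ι ι ℂ) : joinLin hc x =
    φ.f 1 * φ.f x + ψ.f 1 * ψ.f x + Complex.I • prodLin φ ψ (Join.C x) := rfl

lemma joinLin_one : joinLin hc 1 = φ.f 1 * φ.f 1 + ψ.f 1 * ψ.f 1 := by
  simp [joinLin_apply, Join.C_one]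

lemma joinLin_star (x : Matrix ι ι ℂ) : star (joinLin hc x) = joinLin hc xᴴ := by
  rw [joinLin_apply, joinLin_apply, star_add, star_add, star_mul, star_mul, φ.star_map,
    ψ.star_map, φ.star_one, ψ.star_one, star_smul,
    prodLin_star hc, Join.conjTranspose_C, map_neg, Complex.star_def, Complex.conj_I, neg_smul,
    smul_neg, neg_neg, (φ.commute_one _).eq, (ψ.commute_one _).eq]

lemma joinLin_mul (x y : Matrix ι ι ℂ) :
    joinLin hc x * joinLin hc y = joinLin hc 1 * joinLin hc (x * y) := by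
  set h := φ.f 1 with hh
  set g := ψ.f 1 with hg
  set P := prodLin φ ψ with hP
  have chP : ∀ Z, Commute h (P Z) := fun Z => (commute_prod hc (φ.commute_one) (hc 1) Z :)
  have cgP : ∀ Z, Commute g (P Z) := fun Z =>
    (commute_prod hc (fun a => (hc a 1).symm) ψ.commute_one Z :)
  have t11 : h * φ.f x * (h * φ.f y) = h * h * (h * φ.f (x * y)) := by
    rw [mul_mul_mul_swap (φ.commute_one x).symm, φ.mul_map x y]
  have t22 : g * ψ.f x * (g * ψ.f y) = g * g * (g * ψ.f (x * y)) := by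
    rw [mul_mul_mul_swap (ψ.commute_one x).symm, ψ.mul_map x y]
  have t12 : h * φ.f x * (g * ψ.f y) = h * g * P (x ⊗ₖ y) := by
    rw [mul_mul_mul_swap (hc x 1), hP, prodLin_kron]
  have t21 : g * ψ.f x * (h * φ.f y) = h * g * P (y ⊗ₖ x) := by
    rw [mul_mul_mul_swap (hc 1 x).symm, hP, prodLin_kron, ← (hc y x).eq, ← (hc 1 1).eq]
  have t13 : ∀ Z, h * φ.f x * P Z = h * h * P ((x ⊗ₖ (1 : Matrix ι ι ℂ)) * Z) := fun Z => by
    rw [mul_assoc, left_mul_prod hc, ← mul_assoc]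
  have t23 : ∀ Z, g * ψ.f x * P Z = g * g * P (((1 : Matrix ι ι ℂ) ⊗ₖ x) * Z) := fun Z => by
    rw [mul_assoc, right_mul_prod hc, ← mul_assoc]
  have t31 : ∀ Z, P Z * (h * φ.f y) = h * h * P (Z * (y ⊗ₖ (1 : Matrix ι ι ℂ))) := fun Z => by
    rw [← mul_assoc, ← (chP Z).eq, mul_assoc, prod_mul_left hc, ← mul_assoc]
  have t32 : ∀ Z, P Z * (g * ψ.f y) = g * g * P (Z * ((1 : Matrix ι ι ℂ) ⊗ₖ y)) := fun Z => by
    rw [← mul_assoc, ← (cgP Z).eq, mul_assoc, prod_mul_right hc, ← mul_assoc]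
  have t33 : ∀ Z W, P Z * P W = h * g * P (Z * W) := prodLin_mul hc
  have k1 : h * g * P ((x * y) ⊗ₖ (1 : Matrix ι ι ℂ)) = g * g * (h * φ.f (x * y)) := by
    rw [hP, prodLin_kron, ← hg, (hc (x * y) 1).eq, hh, hg, (hc 1 1).eq]
    rw [mul_mul_mul_swap (hc 1 1)]
  have k2 : h * g * P ((1 : Matrix ι ι ℂ) ⊗ₖ (x * y)) = h * h * (g * ψ.f (x * y)) := by
    rw [hP, prodLin_kron, ← hh, mul_mul_mul_swap (hc 1 1).symm]
  have hcross : h * g * P (x ⊗ₖ y) + h * g * P (y ⊗ₖ x) - h * g * P (Join.C x * Join.C y) =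
      g * g * (h * φ.f (x * y)) + h * h * (g * ψ.f (x * y)) := by
    rw [← k1, ← k2, ← mul_add, ← mul_sub, ← mul_add, ← map_add, ← map_sub, ← map_add, Join.C_cross]
  have hl : h * h * P ((x ⊗ₖ (1 : Matrix ι ι ℂ)) * Join.C y) +
      h * h * P (Join.C x * (y ⊗ₖ (1 : Matrix ι ι ℂ))) = h * h * P (Join.C (x * y)) := by
    rw [← mul_add, ← map_add, Join.C_left]
  have hr : g * g * P (((1 : Matrix ι ι ℂ) ⊗ₖ x) * Join.C y) +
      g * g * P (Join.C x * ((1 : Matrix ι ι ℂ) ⊗ₖ y)) = g * g * P (Join.C (x * y)) := by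
    rw [← mul_add, ← map_add, Join.C_right]
  rw [joinLin_one]
  simp only [joinLin_apply, ← hh, ← hg, ← hP, add_mul, mul_add, smul_mul_assoc, mul_smul_comm,
    smul_smul, Complex.I_mul_I, t11, t22, t12, t21, t13, t23, t31, t32, t33, neg_smul, one_smul,
    smul_add]
  rw [← hl, ← hr, smul_add, smul_add]
  linear_combination (norm := module) hcross

/-- The join. -/
noncomputable def join : OZ ι R where
  f := joinLin hc
  star_map := joinLin_star hc
  mul_map := joinLin_mul hc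

lemma join_one : (join hc).f 1 = φ.f 1 * φ.f 1 + ψ.f 1 * ψ.f 1 := joinLin_one hc

lemma commute_join {z : R} (h1 : ∀ x, Commute z (φ.f x)) (h2 : ∀ y, Commute z (ψ.f y))
    (x : Matrix ι ι ℂ) : Commute z ((join hc).f x) :=
  (((h1 1).mul_right (h1 x)).add_right ((h2 1).mul_right (h2 x))).add_right
    ((commute_prod hc h1 h2 (Join.C x)).smul_right _)

end OZ

namespace OZ

variable (φ : OZ ι R)

/-- Change of index type. -/
noncomputable def reindex (e : ι ≃ ι') : OZ ι' R where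
  f := φ.f.comp (Matrix.reindexAlgEquiv ℂ ℂ e.symm).toAlgHom.toLinearMap
  star_map x := by
    show star (φ.f _) = φ.f _
    rw [φ.star_map]; rfl
  mul_map x y := by
    show φ.f (Matrix.reindexAlgEquiv ℂ ℂ e.symm x) * φ.f (Matrix.reindexAlgEquiv ℂ ℂ e.symm y) =
      φ.f (Matrix.reindexAlgEquiv ℂ ℂ e.symm 1) * φ.f (Matrix.reindexAlgEquiv ℂ ℂ e.symm (x * y))
    rw [map_mul, map_one, φ.mul_map]

/-- Multiplication by a self-adjoint element commuting with the range. -/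
noncomputable def scale (c : R) (hs : star c = c) (hcom : ∀ x, Commute c (φ.f x)) : OZ ι R where
  f := (LinearMap.mulLeft ℂ c).comp φ.f
  star_map x := by
    show star (c * φ.f x) = c * φ.f xᴴ
    rw [star_mul, hs, φ.star_map, (hcom _).eq]
  mul_map x y := by
    show c * φ.f x * (c * φ.f y) = c * φ.f 1 * (c * φ.f (x * y))
    rw [mul_mul_mul_swap (hcom x).symm, φ.mul_map, mul_mul_mul_swap (hcom 1).symm]

/-- Composition with a star homomorphism. -/
noncomputable def map {R' : Type*} [Ring R'] [StarRing R'] [Algebra ℂ R'] (g : R →⋆ₐ[ℂ] R') :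
    OZ ι R' where
  f := g.toAlgHom.toLinearMap.comp φ.f
  star_map x := by
    show star (g (φ.f x)) = g (φ.f xᴴ)
    rw [← map_star, φ.star_map]
  mul_map x y := by
    show g (φ.f x) * g (φ.f y) = g (φ.f 1) * g (φ.f (x * y))
    rw [← map_mul g, φ.mul_map x y, map_mul g]

/-- Restriction of the codomain. -/
noncomputable def restrict (D : StarSubalgebra ℂ R) (h : ∀ x, φ.f x ∈ D) : OZ ι D where
  f := φ.f.codRestrict D.toSubalgebra.toSubmodule h
  star_map x := Subtype.ext (φ.star_map x)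
  mul_map x y := Subtype.ext (φ.mul_map x y)

/-- The zero map. -/
noncomputable def zero : OZ ι R where
  f := 0
  star_map _ := by simp
  mul_map _ _ := by simp

/-- The unit on a one point index type. -/
noncomputable def point {P : Type*} [Fintype P] [DecidableEq P] [Unique P] : OZ P R where
  f := (LinearMap.toSpanSingleton ℂ R 1).comp (Matrix.entryLinearMap ℂ ℂ default default)
  star_map x := by
    show star (x default default • (1 : R)) = xᴴ default default • (1 : R)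
    rw [star_smul, _root_.star_one, conjTranspose_apply]
  mul_map x y := by
    show x default default • (1 : R) * y default default • (1 : R) =
      (1 : Matrix P P ℂ) default default • (1 : R) * ((x * y) default default • (1 : R))
    simp [Matrix.mul_apply, smul_smul, mul_comm]

/-- Tensor power of a commuting family. -/
theorem exists_tens : ∀ (n : ℕ) (f : Fin n → OZ ι R), (∀ i j, i ≠ j → Comm (f i) (f j)) →
    ∃ T : OZ (Fin n → ι) R, T.f 1 = slotProd (fun i => (f i).f 1) ∧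
      ∀ z : R, (∀ i x, Commute z ((f i).f x)) → ∀ X, Commute z (T.f X) := by
  intro n
  induction n with
  | zero =>
    intro f _
    refine ⟨point, ?_, fun z _ X => ?_⟩
    · show (1 : Matrix (Fin 0 → ι) (Fin 0 → ι) ℂ) default default • (1 : R) = _
      simp
    · exact (Commute.one_right z).smul_right _
  | succ n ih =>
    intro f hf
    obtain ⟨T, hT1, hTc⟩ := ih (fun i => f i.succ)
      fun i j hij => hf _ _ fun e => hij (Fin.succ_injective _ e)
    have hc : Comm (f 0) T := fun x X =>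
      hTc _ (fun i y => hf _ _ (Fin.succ_ne_zero i).symm x y) X
    refine ⟨(prod hc).reindex (Fin.consEquiv fun _ => ι), ?_, fun z hz X => ?_⟩
    · show (prod hc).f (Matrix.reindexAlgEquiv ℂ ℂ (Fin.consEquiv fun _ => ι).symm 1) = _
      rw [map_one, prod_one, hT1, slotProd_succ]
    · exact commute_prod hc (hz 0) (hTc z fun i => hz i.succ) _

end OZ

/-- Weight of an iterated join. -/
def joinW {S : Type*} [Semiring S] : ∀ {n : ℕ}, (Fin n → S) → S
  | 0, _ => 0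
  | _ + 1, w => w 0 * w 0 + joinW (fun i => w i.succ) * joinW (fun i => w i.succ)

lemma map_joinW {S S' F : Type*} [Semiring S] [Semiring S'] [FunLike F S S'] [RingHomClass F S S']
    (g : F) : ∀ {n : ℕ} (w : Fin n → S), g (joinW w) = joinW (g ∘ w)
  | 0, _ => map_zero g
  | n + 1, w => by
    simp only [joinW, map_add, map_mul, map_joinW g]
    rfl

lemma joinW_nonneg : ∀ {n : ℕ} (w : Fin n → ℝ), 0 ≤ joinW w
  | 0, _ => le_rfl
  | n + 1, w => add_nonneg (mul_self_nonneg _) (mul_self_nonneg _)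

lemma joinW_eq_zero : ∀ {n : ℕ} {w : Fin n → ℝ}, joinW w = 0 → ∀ i, w i = 0
  | 0, _, _, i => i.elim0
  | n + 1, w, h, i => by
    have := (add_eq_zero_iff_of_nonneg (mul_self_nonneg _) (mul_self_nonneg _)).1 h
    induction i using Fin.cases with
    | zero => exact mul_self_eq_zero.1 this.1
    | succ j => exact joinW_eq_zero (mul_self_eq_zero.1 this.2) j

/-- Iterated join of a commuting family. -/
theorem OZ.exists_join : ∀ (n : ℕ) (f : Fin n → OZ ι R), (∀ i j, i ≠ j → Comm (f i) (f j)) →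
    ∃ J : OZ ι R, J.f 1 = joinW (fun i => (f i).f 1) ∧
      ∀ z : R, (∀ i x, Commute z ((f i).f x)) → ∀ x, Commute z (J.f x) := by
  intro n
  induction n with
  | zero => exact fun f _ => ⟨OZ.zero, rfl, fun z _ x => Commute.zero_right z⟩
  | succ n ih =>
    intro f hf
    obtain ⟨J, hJ1, hJc⟩ := ih (fun i => f i.succ)
      fun i j hij => hf _ _ fun e => hij (Fin.succ_injective _ e)
    have hc : Comm (f 0) J := fun x y =>
      hJc _ (fun i z => hf _ _ (Fin.succ_ne_zero i).symm x z) y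
    refine ⟨OZ.join hc, ?_, fun z hz x => OZ.commute_join hc (hz 0) (hJc z fun i => hz i.succ) x⟩
    rw [OZ.join_one, hJ1]
    rfl

end Vale.Agent.P101.Lit
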