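import Mathlib
import Vale.Agent.P101.Bridge.Path

/-! P101: prime dimension drop algebras over arbitrary finite index types, as matrices of functions. -/

open scoped Kronecker ComplexOrder
open Matrix

set_option linter.unusedSectionVars false

namespace Vale.Agent.P101.Lit

variable (ι κ : Type*) [Fintype ι] [DecidableEq ι] [Fintype κ] [DecidableEq κ]

/-- `I(ι,κ)`: continuous `f : [0,1] → M_ι ⊗ M_κ` with `f 0 ∈ M_ι ⊗ 1` and `f 1 ∈ 1 ⊗ M_κ`. -/
def dimDrop : StarSubalgebra ℂ C(unitInterval, CStarMatrix (ι × κ) (ι × κ) ℂ) where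
  carrier := {f | (∃ a : Matrix ι ι ℂ, f 0 = CStarMatrix.ofMatrix (a ⊗ₖ (1 : Matrix κ κ ℂ))) ∧
    ∃ b : Matrix κ κ ℂ, f 1 = CStarMatrix.ofMatrix ((1 : Matrix ι ι ℂ) ⊗ₖ b)}
  mul_mem' := by
    rintro f g ⟨⟨a, ha⟩, b, hb⟩ ⟨⟨a', ha'⟩, b', hb'⟩
    refine ⟨⟨a * a', ?_⟩, b * b', ?_⟩
    · rw [ContinuousMap.mul_apply, ha, ha']
      exact congrArg CStarMatrix.ofMatrix
        ((Matrix.mul_kronecker_mul _ _ _ _).symm.trans (by rw [one_mul]))
    · rw [ContinuousMap.mul_apply, hb, hb']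
      exact congrArg CStarMatrix.ofMatrix
        ((Matrix.mul_kronecker_mul _ _ _ _).symm.trans (by rw [one_mul]))
  add_mem' := by
    rintro f g ⟨⟨a, ha⟩, b, hb⟩ ⟨⟨a', ha'⟩, b', hb'⟩
    refine ⟨⟨a + a', ?_⟩, b + b', ?_⟩
    · rw [ContinuousMap.add_apply, ha, ha']
      exact congrArg CStarMatrix.ofMatrix (Matrix.add_kronecker a a' _).symm
    · rw [ContinuousMap.add_apply, hb, hb']
      exact congrArg CStarMatrix.ofMatrix (Matrix.kronecker_add _ b b').symm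
  algebraMap_mem' := by
    intro r
    refine ⟨⟨r • 1, ?_⟩, r • 1, ?_⟩
    · rw [Algebra.algebraMap_eq_smul_one, ContinuousMap.smul_apply, ContinuousMap.one_apply,
        Matrix.smul_kronecker, Matrix.one_kronecker_one]
      rfl
    · rw [Algebra.algebraMap_eq_smul_one, ContinuousMap.smul_apply, ContinuousMap.one_apply,
        Matrix.kronecker_smul, Matrix.one_kronecker_one]
      rfl
  star_mem' := by
    rintro f ⟨⟨a, ha⟩, b, hb⟩
    refine ⟨⟨star a, ?_⟩, star b, ?_⟩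
    · rw [ContinuousMap.star_apply, ha]
      refine (congrArg CStarMatrix.ofMatrix (Matrix.conjTranspose_kronecker _ _)).trans ?_
      rw [Matrix.conjTranspose_one]
      rfl
    · rw [ContinuousMap.star_apply, hb]
      refine (congrArg CStarMatrix.ofMatrix (Matrix.conjTranspose_kronecker _ _)).trans ?_
      rw [Matrix.conjTranspose_one]
      rfl

variable {ι κ}

/-- Evaluation, as a plain matrix. -/
noncomputable def ev (t : unitInterval) : dimDrop ι κ →⋆ₐ[ℂ] Matrix (ι × κ) (ι × κ) ℂ :=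
  ((CStarMatrix.ofMatrixStarAlgEquiv.symm :
      CStarMatrix (ι × κ) (ι × κ) ℂ ≃⋆ₐ[ℂ] Matrix (ι × κ) (ι × κ) ℂ).toStarAlgHom).comp
    ({ toFun := fun f => (f : C(unitInterval, CStarMatrix (ι × κ) (ι × κ) ℂ)) t
       map_one' := rfl
       map_mul' := fun _ _ => rfl
       map_zero' := rfl
       map_add' := fun _ _ => rfl
       commutes' := fun _ => rfl
       map_star' := fun _ => rfl } : dimDrop ι κ →⋆ₐ[ℂ] CStarMatrix (ι × κ) (ι × κ) ℂ)

lemma ev_apply (t : unitInterval) (f : dimDrop ι κ) :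
    ev t f = CStarMatrix.ofMatrix.symm
      ((f : C(unitInterval, CStarMatrix (ι × κ) (ι × κ) ℂ)) t) := rfl

lemma continuous_ev (f : dimDrop ι κ) : Continuous fun t => ev t f :=
  (CStarMatrix.ofMatrixL (m := ι × κ) (n := ι × κ) (A := ℂ)).symm.continuous.comp
    (f : C(unitInterval, CStarMatrix (ι × κ) (ι × κ) ℂ)).continuous

variable [Nonempty ι] [Nonempty κ]

/-- The value in `M_ι` at `0`. -/
noncomputable def aOf (f : dimDrop ι κ) : Matrix ι ι ℂ :=
  Matrix.of fun i j => ev 0 f (i, Classical.arbitrary κ) (j, Classical.arbitrary κ)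

/-- The value in `M_κ` at `1`. -/
noncomputable def bOf (f : dimDrop ι κ) : Matrix κ κ ℂ :=
  Matrix.of fun k l => ev 1 f (Classical.arbitrary ι, k) (Classical.arbitrary ι, l)

lemma aOf_eq {f : dimDrop ι κ} {a : Matrix ι ι ℂ}
    (h : ev 0 f = a ⊗ₖ (1 : Matrix κ κ ℂ)) : aOf f = a := by
  ext i j; simp [aOf, h]

lemma bOf_eq {f : dimDrop ι κ} {b : Matrix κ κ ℂ}
    (h : ev 1 f = (1 : Matrix ι ι ℂ) ⊗ₖ b) : bOf f = b := by
  ext i j; simp [bOf, h]

lemma ev_zero (f : dimDrop ι κ) : ev 0 f = aOf f ⊗ₖ (1 : Matrix κ κ ℂ) := by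
  obtain ⟨⟨a, ha⟩, -⟩ := f.2
  have h : ev 0 f = a ⊗ₖ (1 : Matrix κ κ ℂ) := by
    rw [ev_apply, ha, Equiv.symm_apply_apply]
  rw [aOf_eq h, h]

lemma ev_one (f : dimDrop ι κ) : ev 1 f = (1 : Matrix ι ι ℂ) ⊗ₖ bOf f := by
  obtain ⟨-, b, hb⟩ := f.2
  have h : ev 1 f = (1 : Matrix ι ι ℂ) ⊗ₖ b := by
    rw [ev_apply, hb, Equiv.symm_apply_apply]
  rw [bOf_eq h, h]

end Vale.Agent.P101.Lit
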