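import Mathlib
import Vale.Agent.P101.Lit.DimDrop
import Vale.Agent.P101.Lit.OrderZero

/-!
P101: commuting order zero maps on `M_ι`, `M_κ` with weights `1 - T`, `T` give a unital star
homomorphism on the dimension drop algebra `I(ι,κ)`.
-/

open scoped Kronecker ComplexOrder
open Matrix

set_option linter.unusedSectionVars false

namespace Vale.Agent.P101.Lit

variable {ι κ : Type*} [Fintype ι] [DecidableEq ι] [Fintype κ] [DecidableEq κ]


/-- The coordinate. -/
noncomputable def tau : C(unitInterval, ℂ) := ⟨fun t => ((t : ℝ) : ℂ), by fun_prop⟩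

@[simp] lemma tau_apply (t : unitInterval) : tau t = ((t : ℝ) : ℂ) := rfl

/-! ### The algebra, over any commutative coefficient algebra -/

section Gen

variable {R : Type*} [CommRing R] [Algebra ℂ R]

/-- Constant matrices. -/
noncomputable def kst {P : Type*} [Fintype P] [DecidableEq P] : Matrix P P ℂ →ₐ[ℂ] Matrix P P R :=
  (Algebra.ofId ℂ R).mapMatrix

lemma kst_entry {P : Type*} [Fintype P] [DecidableEq P] (Z : Matrix P P ℂ) (p q : P) :
    (kst Z : Matrix P P R) p q = algebraMap ℂ R (Z p q) := rfl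

lemma expand_kst {P : Type*} [Fintype P] [DecidableEq P] (γ : Matrix P P R) :
    γ = ∑ p, ∑ q, γ p q • kst (single p q (1 : ℂ)) := by
  conv_lhs => rw [matrix_eq_sum_single γ]
  refine Finset.sum_congr rfl fun p _ => Finset.sum_congr rfl fun q _ => ?_
  ext r s
  by_cases h : p = r ∧ q = s
  · obtain ⟨rfl, rfl⟩ := h
    simp [kst_entry]
  · simp [kst_entry, h]

/-- `(1-τ) a⊗1 + τ 1⊗b + τ(1-τ) γ`. -/
noncomputable def repAt (τ : R) (a : Matrix ι ι ℂ) (b : Matrix κ κ ℂ)
    (γ : Matrix (ι × κ) (ι × κ) R) : Matrix (ι × κ) (ι × κ) R :=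
  (1 - τ) • kst (a ⊗ₖ (1 : Matrix κ κ ℂ)) + τ • kst ((1 : Matrix ι ι ℂ) ⊗ₖ b) +
    (τ * (1 - τ)) • γ

/-- The middle part of a product. -/
noncomputable def mulMidAt (τ : R) (a a' : Matrix ι ι ℂ) (b b' : Matrix κ κ ℂ)
    (γ γ' : Matrix (ι × κ) (ι × κ) R) : Matrix (ι × κ) (ι × κ) R :=
  kst (a ⊗ₖ b') + kst (a' ⊗ₖ b) - kst ((a * a') ⊗ₖ (1 : Matrix κ κ ℂ)) -
      kst ((1 : Matrix ι ι ℂ) ⊗ₖ (b * b')) +
    (1 - τ) • (kst (a ⊗ₖ (1 : Matrix κ κ ℂ)) * γ' + γ * kst (a' ⊗ₖ (1 : Matrix κ κ ℂ))) +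
    τ • (kst ((1 : Matrix ι ι ℂ) ⊗ₖ b) * γ' + γ * kst ((1 : Matrix ι ι ℂ) ⊗ₖ b')) +
    (τ * (1 - τ)) • (γ * γ')

variable (τ : R)

lemma repAt_add (a a' : Matrix ι ι ℂ) (b b' : Matrix κ κ ℂ)
    (γ γ' : Matrix (ι × κ) (ι × κ) R) :
    repAt τ (a + a') (b + b') (γ + γ') = repAt τ a b γ + repAt τ a' b' γ' := by
  simp only [repAt, add_kronecker, kronecker_add, map_add, smul_add]
  abel

lemma repAt_mul (a a' : Matrix ι ι ℂ) (b b' : Matrix κ κ ℂ)
    (γ γ' : Matrix (ι × κ) (ι × κ) R) :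
    repAt τ a b γ * repAt τ a' b' γ' =
      repAt τ (a * a') (b * b') (mulMidAt τ a a' b b' γ γ') := by
  simp only [repAt, mulMidAt, add_mul, mul_add, smul_mul_assoc, mul_smul_comm, smul_smul, smul_add,
    smul_sub, ← map_mul kst, ← mul_kronecker_mul, one_mul, mul_one]
  module

lemma repAt_one : repAt τ (1 : Matrix ι ι ℂ) (1 : Matrix κ κ ℂ) 0 = 1 := by
  simp [repAt, ← add_smul]

lemma repAt_smul (r : ℂ) (a : Matrix ι ι ℂ) (b : Matrix κ κ ℂ)
    (γ : Matrix (ι × κ) (ι × κ) R) : repAt τ (r • a) (r • b) (r • γ) = r • repAt τ a b γ := by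
  simp only [repAt, smul_kronecker, kronecker_smul, map_smul, smul_add, smul_comm r]

lemma kst_map {S : Type*} [CommRing S] [Algebra ℂ S] (g : R →ₐ[ℂ] S)
    {P : Type*} [Fintype P] [DecidableEq P] (Z : Matrix P P ℂ) :
    (kst Z : Matrix P P R).map g = kst Z := by
  ext p q; simp [kst_entry]

variable [StarRing R] [StarModule ℂ R]

lemma kst_conjTranspose {P : Type*} [Fintype P] [DecidableEq P] (Z : Matrix P P ℂ) :
    (kst Z : Matrix P P R)ᴴ = kst Zᴴ := by
  ext p q
  rw [conjTranspose_apply, kst_entry, kst_entry, conjTranspose_apply, algebraMap_star_comm]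

lemma repAt_star (hτ : star τ = τ) (a : Matrix ι ι ℂ) (b : Matrix κ κ ℂ)
    (γ : Matrix (ι × κ) (ι × κ) R) : (repAt τ a b γ)ᴴ = repAt τ aᴴ bᴴ γᴴ := by
  have e1 : ∀ (c : R) (X : Matrix (ι × κ) (ι × κ) R), (c • X)ᴴ = star c • Xᴴ := fun c X => by
    ext p q; simp [mul_comm]
  simp only [repAt, conjTranspose_add, e1, kst_conjTranspose, conjTranspose_kronecker,
    conjTranspose_one, star_mul, star_sub, star_one, hτ, mul_comm]

end Gen

noncomputable abbrev rep (a : Matrix ι ι ℂ) (b : Matrix κ κ ℂ)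
    (γ : Matrix (ι × κ) (ι × κ) C(unitInterval, ℂ)) : Matrix (ι × κ) (ι × κ) C(unitInterval, ℂ) := repAt tau a b γ

noncomputable abbrev mulMid (a a' : Matrix ι ι ℂ) (b b' : Matrix κ κ ℂ)
    (γ γ' : Matrix (ι × κ) (ι × κ) C(unitInterval, ℂ)) : Matrix (ι × κ) (ι × κ) C(unitInterval, ℂ) := mulMidAt tau a a' b b' γ γ'

lemma kst_apply {P : Type*} [Fintype P] [DecidableEq P] (Z : Matrix P P ℂ) (p q : P)
    (t : unitInterval) : (kst Z : Matrix P P C(unitInterval, ℂ)) p q t = Z p q := rfl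

lemma rep_injective {a : Matrix ι ι ℂ} {b : Matrix κ κ ℂ}
    {γ γ' : Matrix (ι × κ) (ι × κ) C(unitInterval, ℂ)} (h : rep a b γ = rep a b γ') : γ = γ' := by
  simp only [repAt, add_right_inj] at h
  ext p q t
  have h' : ∀ s : unitInterval, (s : ℝ) ∈ Set.Ioo (0 : ℝ) 1 → γ p q s = γ' p q s := by
    intro s hs
    have := DFunLike.congr_fun (congrFun (congrFun h p) q) s
    simp only [Matrix.smul_apply, smul_eq_mul, ContinuousMap.mul_apply, ContinuousMap.sub_apply,
      ContinuousMap.one_apply, tau_apply] at this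
    refine mul_left_cancel₀ ?_ this
    refine mul_ne_zero (by simpa using hs.1.ne') (sub_ne_zero.2 ?_)
    exact_mod_cast hs.2.ne'
  have hc : Set.EqOn (fun x => γ p q (Set.projIcc 0 1 zero_le_one x))
      (fun x => γ' p q (Set.projIcc 0 1 zero_le_one x)) (Set.Ioo 0 1) := fun x hx => by
    refine h' _ ?_
    rwa [Set.projIcc_of_mem _ (Set.Ioo_subset_Icc_self hx)]
  have := hc.closure ((γ p q).continuous.comp continuous_projIcc)
    ((γ' p q).continuous.comp continuous_projIcc)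
  rw [closure_Ioo zero_ne_one] at this
  simpa [Set.projIcc_of_mem _ t.2] using this t.2

/-! ### The reparametrised algebra -/

section G

variable [Nonempty ι] [Nonempty κ]

/-- The structure map. -/
noncomputable abbrev amap : ℂ →+* dimDrop ι κ :=
  @algebraMap ℂ (dimDrop ι κ) _ (SubsemiringClass.toSemiring (dimDrop ι κ)) _

/-- `f ∘ η` with `η` constant near the end points. -/
noncomputable def GOf (f : dimDrop ι κ) : Matrix (ι × κ) (ι × κ) C(unitInterval, ℂ) :=
  Matrix.of fun p q => ⟨fun t => ev (Bridge.eta (t : ℝ)) f p q,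
    (Continuous.matrix_elem ((continuous_ev f).comp
      (Bridge.eta.continuous.comp continuous_subtype_val)) p q)⟩

lemma GOf_apply (f : dimDrop ι κ) (p q : ι × κ) (t : unitInterval) :
    GOf f p q t = ev (Bridge.eta (t : ℝ)) f p q := rfl

lemma GOf_add (f g : dimDrop ι κ) : GOf (f + g) = GOf f + GOf g := by
  ext p q t; simp [GOf_apply]

lemma GOf_mul (f g : dimDrop ι κ) : GOf (f * g) = GOf f * GOf g := by
  ext p q t; simp [GOf_apply, Matrix.mul_apply, ContinuousMap.sum_apply]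

lemma GOf_smul_one (r : ℂ) : GOf (amap r : dimDrop ι κ) = r • 1 := by
  ext p q t
  rw [GOf_apply, AlgHomClass.commutes, Matrix.algebraMap_matrix_apply]
  by_cases h : p = q <;> simp [h, Matrix.one_apply]

lemma GOf_star (f : dimDrop ι κ) : GOf (star f) = (GOf f)ᴴ := by
  ext p q t; simp [GOf_apply, map_star, Matrix.star_apply]

lemma exists_rep (f : dimDrop ι κ) : ∃ γ, GOf f = rep (aOf f) (bOf f) γ := by
  set A := aOf f ⊗ₖ (1 : Matrix κ κ ℂ) with hA
  set C := (1 : Matrix ι ι ℂ) ⊗ₖ bOf f with hC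
  let u : unitInterval → ℝ := fun t => (Bridge.eta (t : ℝ) : ℝ)
  let c : unitInterval → ℝ := fun t => (max ((t : ℝ) * (1 - t)) (3/16))⁻¹
  let s : unitInterval → ℝ := fun t => max (-(max (1 - (t : ℝ)) (1/2))⁻¹)
    (min ((max (t : ℝ) (1/2))⁻¹) (((t : ℝ) - 1/2) * c t))
  have hcc : Continuous c := by
    refine Continuous.inv₀ (by fun_prop) fun t => ?_
    positivity
  have hsc : Continuous s := by
    have h1 : Continuous fun t : unitInterval => (max (1 - (t : ℝ)) (1/2))⁻¹ :=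
      Continuous.inv₀ (by fun_prop) fun t => by positivity
    have h2 : Continuous fun t : unitInterval => (max (t : ℝ) (1/2))⁻¹ :=
      Continuous.inv₀ (by fun_prop) fun t => by positivity
    exact h1.neg.max (h2.min ((by fun_prop : Continuous fun t : unitInterval => (t : ℝ) - 1/2).mul hcc))
  have hu : Continuous u :=
    continuous_subtype_val.comp (Bridge.eta.continuous.comp continuous_subtype_val)
  refine ⟨Matrix.of fun p q => ⟨fun t => (c t : ℂ) * (GOf f p q t -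
    ((1 - (u t : ℂ)) * A p q + (u t : ℂ) * C p q)) + (s t : ℂ) * (C p q - A p q), by fun_prop⟩, ?_⟩
  ext p q t
  have h0 : 0 ≤ (t : ℝ) := t.2.1
  have h1 : (t : ℝ) ≤ 1 := t.2.2
  have e1 : GOf f p q t - ((1 - (u t : ℂ)) * A p q + (u t : ℂ) * C p q) = 0 ∨
      c t * ((t : ℝ) * (1 - t)) = 1 := by
    rcases le_total (t : ℝ) (1/4) with h | h
    · left
      simp [GOf_apply, u, Bridge.eta_eq_zero h, ev_zero, hA]
    rcases le_total (3/4) (t : ℝ) with h' | h'
    · left
      simp [GOf_apply, u, Bridge.eta_eq_one h', ev_one, hC]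
    right
    have : 3/16 ≤ (t : ℝ) * (1 - t) := by nlinarith
    show (max _ _)⁻¹ * _ = 1
    rw [max_eq_left this, inv_mul_cancel₀ (by linarith)]
  have e2 : (t : ℝ) * (1 - t) * s t = u t - t := by
    rcases le_total (t : ℝ) (1/4) with h | h
    · have hs : s t = -(1 - (t : ℝ))⁻¹ := by
        show max _ _ = _
        rw [max_eq_left (show (1/2 : ℝ) ≤ 1 - t by linarith), max_eq_left]
        refine (min_le_right _ _).trans ?_
        have hc : c t = (3/16 : ℝ)⁻¹ := by
          show (max _ _)⁻¹ = _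
          rw [max_eq_right (by nlinarith)]
        have : (1 - (t : ℝ))⁻¹ ≤ (3/4 : ℝ)⁻¹ := inv_anti₀ (by norm_num) (by linarith)
        rw [hc]; norm_num at this ⊢; nlinarith
      rw [hs, show u t = 0 by simp [u, Bridge.eta_eq_zero h]]
      field_simp [show (1 : ℝ) - t ≠ 0 by linarith]
      ring
    rcases le_total (3/4) (t : ℝ) with h' | h'
    · have hs : s t = (t : ℝ)⁻¹ := by
        show max _ _ = _
        have hc : c t = (3/16 : ℝ)⁻¹ := by
          show (max _ _)⁻¹ = _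
          rw [max_eq_right (by nlinarith)]
        rw [max_eq_left (show (1/2 : ℝ) ≤ t by linarith), min_eq_left, max_eq_right]
        · exact (neg_nonpos.2 (by positivity)).trans (by positivity)
        · have : (t : ℝ)⁻¹ ≤ (3/4 : ℝ)⁻¹ := inv_anti₀ (by norm_num) h'
          rw [hc]; norm_num at this ⊢; nlinarith
      rw [hs, show u t = 1 by simp [u, Bridge.eta_eq_one h']]
      field_simp [show (t : ℝ) ≠ 0 by linarith]
    have hu' : u t = 2 * (t : ℝ) - 1/2 := by
      show ((Set.projIcc (0 : ℝ) 1 zero_le_one (2 * (t : ℝ) - 1/2) : unitInterval) : ℝ) = _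
      rw [Set.projIcc_of_mem _ ⟨by linarith, by linarith⟩]
    have hp : 0 < (t : ℝ) * (1 - t) := by nlinarith
    have hc : c t = ((t : ℝ) * (1 - t))⁻¹ := by
      show (max _ _)⁻¹ = _
      rw [max_eq_left (by nlinarith)]
    have hs : s t = ((t : ℝ) - 1/2) * c t := by
      show max _ _ = _
      rw [hc, ← div_eq_mul_inv]
      have hm1 : 0 < max (t : ℝ) (1/2) := by positivity
      have hm2 : 0 < max (1 - (t : ℝ)) (1/2) := by positivity
      rw [min_eq_right, max_eq_right]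
      · rw [neg_le, ← neg_div, ← one_div, div_le_div_iff₀ hp hm2]
        rcases max_cases (1 - (t : ℝ)) (1/2) with h | h <;> rw [h.1] <;> nlinarith
      · rw [← one_div, div_le_div_iff₀ hp hm1]
        rcases max_cases (t : ℝ) (1/2) with h | h <;> rw [h.1] <;> nlinarith
    rw [hs, hc, hu', mul_comm ((t : ℝ) - 1/2), ← mul_assoc, mul_inv_cancel₀ hp.ne', one_mul]
    ring
  have e2' : ((t : ℝ) : ℂ) * (1 - (t : ℝ)) * (s t : ℂ) = (u t : ℂ) - (t : ℝ) := by exact_mod_cast e2
  simp only [repAt, Matrix.add_apply, Matrix.smul_apply, smul_eq_mul, ContinuousMap.add_apply,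
    ContinuousMap.mul_apply, ContinuousMap.sub_apply, ContinuousMap.one_apply, tau_apply,
    kst_apply, Matrix.of_apply, ContinuousMap.coe_mk, ← hA, ← hC]
  rcases e1 with e | e
  · linear_combination e - (1 + (0:ℂ)) * (C p q - A p q) * e2' -
      ((t : ℝ) : ℂ) * (1 - (t : ℝ)) * (c t : ℂ) * e
  · have e' : (c t : ℂ) * (((t : ℝ) : ℂ) * (1 - (t : ℝ))) = 1 := by exact_mod_cast e
    linear_combination -(GOf f p q t - ((1 - (u t : ℂ)) * A p q + (u t : ℂ) * C p q)) * e' -
      (C p q - A p q) * e2'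

end G

/-! ### The homomorphism -/

section Hom

variable {B : Type*} [CStarAlgebra B]
variable {R : Type*} [CommRing R] [StarRing R] [Algebra ℂ R] [StarModule ℂ R] {tau : R}
variable {α : OZ ι B} {β : OZ κ B} (hc : Comm α β) (Γ : R →⋆ₐ[ℂ] B)

/-- `∑ Γ(γ_pq) Φ(e_pq)`. -/
noncomputable def mid : Matrix (ι × κ) (ι × κ) R →ₗ[ℂ] B where
  toFun γ := ∑ p, ∑ q, Γ (γ p q) * (OZ.prod hc).f (single p q 1)
  map_add' γ δ := by simp only [Matrix.add_apply, map_add, add_mul, Finset.sum_add_distrib]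
  map_smul' r γ := by
    simp only [Matrix.smul_apply, map_smul, smul_mul_assoc, Finset.smul_sum, RingHom.id_apply]

lemma mid_smul (c : R) (γ : Matrix (ι × κ) (ι × κ) R) :
    mid hc Γ (c • γ) = Γ c * mid hc Γ γ := by
  simp only [mid, LinearMap.coe_mk, AddHom.coe_mk, Matrix.smul_apply, smul_eq_mul, map_mul,
    Finset.mul_sum, mul_assoc]

lemma mid_kst (Z : Matrix (ι × κ) (ι × κ) ℂ) : mid hc Γ (kst Z) = (OZ.prod hc).f Z := by
  conv_rhs => rw [OZ.sum_single (OZ.prod hc) Z]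
  refine Finset.sum_congr rfl fun p _ => Finset.sum_congr rfl fun q _ => ?_
  show Γ (algebraMap ℂ R (Z p q)) * _ = _
  rw [AlgHomClass.commutes, Algebra.smul_def]

variable {hc Γ} (h1 : Γ tau = β.f 1) (hsum : α.f 1 + β.f 1 = 1)
  (hα : ∀ g x, Commute (Γ g) (α.f x)) (hβ : ∀ g y, Commute (Γ g) (β.f y))
include hα hβ

lemma commute_prod_Gamma (g : R) (Z : Matrix (ι × κ) (ι × κ) ℂ) :
    Commute (Γ g) ((OZ.prod hc).f Z) := OZ.commute_prod hc (hα g) (hβ g) Z

lemma commute_mid (g : R) (γ : Matrix (ι × κ) (ι × κ) R) : Commute (Γ g) (mid hc Γ γ) :=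
  Commute.sum_right _ _ _ fun p _ => Commute.sum_right _ _ _ fun q _ =>
    ((Commute.all g (γ p q)).map Γ).mul_right (commute_prod_Gamma hα hβ g _)

lemma mid_mul (γ δ : Matrix (ι × κ) (ι × κ) R) :
    mid hc Γ γ * mid hc Γ δ = (OZ.prod hc).f 1 * mid hc Γ (γ * δ) := by
  conv_rhs => rw [expand_kst γ, expand_kst δ]
  simp only [Finset.sum_mul, Finset.mul_sum, map_sum, smul_mul_smul_comm, ← map_mul kst,
    mid_smul, mid_kst]
  simp only [mid, LinearMap.coe_mk, AddHom.coe_mk, Finset.sum_mul, Finset.mul_sum]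
  refine Finset.sum_congr rfl fun r _ => Finset.sum_congr rfl fun s _ =>
    Finset.sum_congr rfl fun p _ => Finset.sum_congr rfl fun q _ => ?_
  rw [mul_mul_mul_swap (commute_prod_Gamma hα hβ _ _).symm, (OZ.prod hc).mul_map, ← mul_assoc,
    ← map_mul, (commute_prod_Gamma hα hβ _ _).eq, mul_assoc]

lemma mid_star (γ : Matrix (ι × κ) (ι × κ) R) : star (mid hc Γ γ) = mid hc Γ γᴴ := by
  simp only [mid, LinearMap.coe_mk, AddHom.coe_mk, star_sum, star_mul, (OZ.prod hc).star_map,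
    conjTranspose_single, _root_.star_one, conjTranspose_apply, map_star]
  rw [Finset.sum_comm]
  refine Finset.sum_congr rfl fun p _ => Finset.sum_congr rfl fun q _ => ?_
  rw [← map_star]
  exact ((commute_prod_Gamma hα hβ _ _).eq).symm

lemma left_mid (a : Matrix ι ι ℂ) (γ : Matrix (ι × κ) (ι × κ) R) :
    α.f a * mid hc Γ γ = α.f 1 * mid hc Γ (kst (a ⊗ₖ (1 : Matrix κ κ ℂ)) * γ) := by
  conv_rhs => rw [expand_kst γ]
  simp only [Finset.mul_sum, map_sum, mul_smul_comm, mid_smul, ← map_mul kst, mid_kst]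
  simp only [mid, LinearMap.coe_mk, AddHom.coe_mk, Finset.mul_sum]
  refine Finset.sum_congr rfl fun p _ => Finset.sum_congr rfl fun q _ => ?_
  rw [← mul_assoc, ← (hα _ a).eq, mul_assoc]
  show _ * (α.f a * OZ.prodLin α β _) = α.f 1 * (_ * OZ.prodLin α β _)
  rw [OZ.left_mul_prod hc, ← mul_assoc, (hα _ 1).eq, mul_assoc]

lemma mid_left (a : Matrix ι ι ℂ) (γ : Matrix (ι × κ) (ι × κ) R) :
    mid hc Γ γ * α.f a = α.f 1 * mid hc Γ (γ * kst (a ⊗ₖ (1 : Matrix κ κ ℂ))) := by
  conv_rhs => rw [expand_kst γ]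
  simp only [Finset.sum_mul, map_sum, smul_mul_assoc, mid_smul, ← map_mul kst, mid_kst]
  simp only [mid, LinearMap.coe_mk, AddHom.coe_mk, Finset.sum_mul, Finset.mul_sum]
  refine Finset.sum_congr rfl fun p _ => Finset.sum_congr rfl fun q _ => ?_
  rw [mul_assoc]
  show _ * (OZ.prodLin α β _ * α.f a) = α.f 1 * (_ * OZ.prodLin α β _)
  rw [OZ.prod_mul_left hc, ← mul_assoc, (hα _ 1).eq, mul_assoc]

lemma right_mid (b : Matrix κ κ ℂ) (γ : Matrix (ι × κ) (ι × κ) R) :
    β.f b * mid hc Γ γ = β.f 1 * mid hc Γ (kst ((1 : Matrix ι ι ℂ) ⊗ₖ b) * γ) := by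
  conv_rhs => rw [expand_kst γ]
  simp only [Finset.mul_sum, map_sum, mul_smul_comm, mid_smul, ← map_mul kst, mid_kst]
  simp only [mid, LinearMap.coe_mk, AddHom.coe_mk, Finset.mul_sum]
  refine Finset.sum_congr rfl fun p _ => Finset.sum_congr rfl fun q _ => ?_
  rw [← mul_assoc, ← (hβ _ b).eq, mul_assoc]
  show _ * (β.f b * OZ.prodLin α β _) = β.f 1 * (_ * OZ.prodLin α β _)
  rw [OZ.right_mul_prod hc, ← mul_assoc, (hβ _ 1).eq, mul_assoc]

lemma mid_right (b : Matrix κ κ ℂ) (γ : Matrix (ι × κ) (ι × κ) R) :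
    mid hc Γ γ * β.f b = β.f 1 * mid hc Γ (γ * kst ((1 : Matrix ι ι ℂ) ⊗ₖ b)) := by
  conv_rhs => rw [expand_kst γ]
  simp only [Finset.sum_mul, map_sum, smul_mul_assoc, mid_smul, ← map_mul kst, mid_kst]
  simp only [mid, LinearMap.coe_mk, AddHom.coe_mk, Finset.sum_mul, Finset.mul_sum]
  refine Finset.sum_congr rfl fun p _ => Finset.sum_congr rfl fun q _ => ?_
  rw [mul_assoc]
  show _ * (OZ.prodLin α β _ * β.f b) = β.f 1 * (_ * OZ.prodLin α β _)
  rw [OZ.prod_mul_right hc, ← mul_assoc, (hβ _ 1).eq, mul_assoc]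

include h1 hsum

/-- The product rule of `α a + β b + mid γ`. -/
lemma val_mul (a a' : Matrix ι ι ℂ) (b b' : Matrix κ κ ℂ) (γ γ' : Matrix (ι × κ) (ι × κ) R) :
    (α.f a + β.f b + mid hc Γ γ) * (α.f a' + β.f b' + mid hc Γ γ') =
      α.f (a * a') + β.f (b * b') + mid hc Γ (mulMidAt tau a a' b b' γ γ') := by
  have h2 : α.f 1 = Γ (1 - tau) := by rw [map_sub Γ, map_one Γ, h1]; exact eq_sub_of_add_eq hsum
  have eA : α.f 1 * α.f (a * a') =
      α.f (a * a') - mid hc Γ (kst ((a * a') ⊗ₖ (1 : Matrix κ κ ℂ))) := by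
    rw [mid_kst, OZ.prod_kron, eq_sub_iff_add_eq, (hc (a * a') 1).eq, ← add_mul, hsum, one_mul]
  have eB : β.f 1 * β.f (b * b') =
      β.f (b * b') - mid hc Γ (kst ((1 : Matrix ι ι ℂ) ⊗ₖ (b * b'))) := by
    rw [mid_kst, OZ.prod_kron, eq_sub_iff_add_eq, add_comm, ← add_mul, hsum, one_mul]
  have eW : (OZ.prod hc).f 1 = Γ (tau * (1 - tau)) := by
    rw [OZ.prod_one, (hc 1 1).eq, h2, ← h1, ← map_mul]
  simp only [add_mul, mul_add]
  rw [α.mul_map a a', β.mul_map b b', eA, eB, ← (hc a' b).eq, left_mid hα hβ a γ',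
    mid_left hα hβ a' γ, right_mid hα hβ b γ', mid_right hα hβ b' γ, mid_mul hα hβ, eW]
  rw [h2, ← h1]
  simp only [mulMidAt, map_add, map_sub, mid_smul, mid_kst, OZ.prod_kron, mul_add]
  abel

end Hom

section Main

variable {B : Type*} [CStarAlgebra B] [Nonempty ι] [Nonempty κ]
variable {α : OZ ι B} {β : OZ κ B} {Γ : C(unitInterval, ℂ) →⋆ₐ[ℂ] B}

/-- Commuting order zero maps with complementary weights give a hom of the dimension drop algebra. -/
theorem nonempty_hom_of_oz (hc : Comm α β) (h1 : Γ tau = β.f 1) (hsum : α.f 1 + β.f 1 = 1)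
    (hα : ∀ g x, Commute (Γ g) (α.f x)) (hβ : ∀ g y, Commute (Γ g) (β.f y)) :
    Nonempty (dimDrop ι κ →⋆ₐ[ℂ] B) := by
  classical
  choose γ hγ using exists_rep (ι := ι) (κ := κ)
  let Θ : dimDrop ι κ → B := fun f => α.f (aOf f) + β.f (bOf f) + mid hc Γ (γ f)
  have key : ∀ f a b δ, ev 0 f = a ⊗ₖ (1 : Matrix κ κ ℂ) → ev 1 f = (1 : Matrix ι ι ℂ) ⊗ₖ b →
      GOf f = rep a b δ → Θ f = α.f a + β.f b + mid hc Γ δ := by
    intro f a b δ ha hb hG
    have := hγ f
    rw [aOf_eq ha, bOf_eq hb, hG] at this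
    show _ + _ + _ = _
    rw [aOf_eq ha, bOf_eq hb, rep_injective this]
  have kmul : ∀ f g, Θ (f * g) = Θ f * Θ g := fun f g => by
    rw [val_mul h1 hsum hα hβ]
    refine key _ _ _ _ ?_ ?_ ?_
    · rw [map_mul, ev_zero, ev_zero, ← mul_kronecker_mul, one_mul]
    · rw [map_mul, ev_one, ev_one, ← mul_kronecker_mul, one_mul]
    · rw [GOf_mul, hγ, hγ]; exact repAt_mul _ _ _ _ _ _ _
  have kadd : ∀ f g, Θ (f + g) = Θ f + Θ g := fun f g => by
    rw [key (f + g) (aOf f + aOf g) (bOf f + bOf g) (γ f + γ g)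
      (by rw [map_add, ev_zero, ev_zero, add_kronecker])
      (by rw [map_add, ev_one, ev_one, kronecker_add]) (by rw [GOf_add, hγ, hγ]; exact (repAt_add _ _ _ _ _ _ _).symm)]
    simp only [Θ, map_add]; abel
  have kalg : ∀ r, Θ (amap r) = algebraMap ℂ B r := fun r => by
    rw [key _ (r • 1) (r • 1) 0 ?_ ?_ ?_]
    · rw [map_smul, map_smul, map_zero, add_zero, ← smul_add, hsum,
        Algebra.algebraMap_eq_smul_one]
    · rw [AlgHomClass.commutes, Algebra.algebraMap_eq_smul_one, smul_kronecker, one_kronecker_one]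
    · rw [AlgHomClass.commutes, Algebra.algebraMap_eq_smul_one, kronecker_smul, one_kronecker_one]
    · have := repAt_smul (ι := ι) (κ := κ) (tau : C(unitInterval, ℂ)) r 1 1 0
      simp only [repAt_one] at this
      rw [show r • (0 : Matrix (ι × κ) (ι × κ) C(unitInterval, ℂ)) = 0 by ext; simp] at this
      rw [GOf_smul_one]; exact this.symm
  have kstar : ∀ f, Θ (star f) = star (Θ f) := fun f => by
    rw [key (star f) (aOf f)ᴴ (bOf f)ᴴ (γ f)ᴴ
      (by rw [map_star, ev_zero, star_eq_conjTranspose, conjTranspose_kronecker, conjTranspose_one])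
      (by rw [map_star, ev_one, star_eq_conjTranspose, conjTranspose_kronecker, conjTranspose_one])
      (by rw [GOf_star, hγ]; exact repAt_star _ (by ext t; simp) _ _ _)]
    simp only [Θ, star_add, α.star_map, β.star_map, mid_star hα hβ]
  exact ⟨{
    toFun := Θ
    map_one' := by simpa using kalg 1
    map_mul' := kmul
    map_zero' := by simpa using kalg 0
    map_add' := kadd
    commutes' := kalg
    map_star' := kstar }⟩

end Main

end Vale.Agent.P101.Lit
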