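import Mathlib
import Vale.Agent.P101.Copies
import Vale.Agent.P101.Bridge.Hom
import Vale.Agent.P101.Lit.OrderZero
import Vale.Agent.P101.Lit.Universal

/-!
P101: a unital hom `I(2,3) → B` and the copy property give unital homs `I(2^a,3^b) → B`.
-/

open scoped Kronecker ComplexOrder
open Matrix

set_option linter.unusedSectionVars false

namespace Vale.Agent.P101.Lit

open Bridge (leftEl rightEl mkFun mkFun_mul tt)

lemma leftEl_add (a b : Matrix (Fin 2) (Fin 2) ℂ) : leftEl (a + b) = leftEl a + leftEl b :=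
  Subtype.ext (by
    show mkFun _ _ = mkFun _ _ + mkFun _ _
    rw [Bridge.mkFun_add, add_kronecker])

lemma rightEl_add (a b : Matrix (Fin 3) (Fin 3) ℂ) : rightEl (a + b) = rightEl a + rightEl b :=
  Subtype.ext (by
    show mkFun _ _ = mkFun _ _ + mkFun _ _
    rw [Bridge.mkFun_add, kronecker_add])

lemma leftEl_smul (r : ℂ) (a : Matrix (Fin 2) (Fin 2) ℂ) : leftEl (r • a) = r • leftEl a :=
  Subtype.ext (by
    show mkFun _ _ = r • mkFun _ _
    ext t : 1
    show (1 - tt) t • (CStarMatrix.ofMatrix ((r • a) ⊗ₖ (1 : Matrix (Fin 3) (Fin 3) ℂ)) : M23) =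
      r • ((1 - tt) t • (CStarMatrix.ofMatrix (a ⊗ₖ (1 : Matrix (Fin 3) (Fin 3) ℂ)) : M23))
    rw [smul_kronecker, smul_comm r]
    rfl)

lemma rightEl_smul (r : ℂ) (a : Matrix (Fin 3) (Fin 3) ℂ) : rightEl (r • a) = r • rightEl a :=
  Subtype.ext (by
    show mkFun _ _ = r • mkFun _ _
    ext t : 1
    show tt t • (CStarMatrix.ofMatrix ((1 : Matrix (Fin 2) (Fin 2) ℂ) ⊗ₖ (r • a)) : M23) =
      r • (tt t • (CStarMatrix.ofMatrix ((1 : Matrix (Fin 2) (Fin 2) ℂ) ⊗ₖ a) : M23))
    rw [kronecker_smul, smul_comm r]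
    rfl)

lemma star_leftEl (x : Matrix (Fin 2) (Fin 2) ℂ) : star (leftEl x) = leftEl xᴴ :=
  Subtype.ext (by
    show star (mkFun _ _) = mkFun _ _
    ext t : 1
    show star ((1 - tt) t • (CStarMatrix.ofMatrix (x ⊗ₖ (1 : Matrix (Fin 3) (Fin 3) ℂ)) : M23)) =
      (1 - tt) t • (CStarMatrix.ofMatrix (xᴴ ⊗ₖ (1 : Matrix (Fin 3) (Fin 3) ℂ)) : M23)
    rw [star_smul]
    congr 1
    · simp [tt]
    · refine (congrArg CStarMatrix.ofMatrix (Matrix.conjTranspose_kronecker _ _)).trans ?_
      rw [conjTranspose_one])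

lemma star_rightEl (x : Matrix (Fin 3) (Fin 3) ℂ) : star (rightEl x) = rightEl xᴴ :=
  Subtype.ext (by
    show star (mkFun _ _) = mkFun _ _
    ext t : 1
    show star (tt t • (CStarMatrix.ofMatrix ((1 : Matrix (Fin 2) (Fin 2) ℂ) ⊗ₖ x) : M23)) =
      tt t • (CStarMatrix.ofMatrix ((1 : Matrix (Fin 2) (Fin 2) ℂ) ⊗ₖ xᴴ) : M23)
    rw [star_smul]
    congr 1
    · simp [tt]
    · refine (congrArg CStarMatrix.ofMatrix (Matrix.conjTranspose_kronecker _ _)).trans ?_
      rw [conjTranspose_one])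

lemma leftEl_mul (x y : Matrix (Fin 2) (Fin 2) ℂ) :
    leftEl x * leftEl y = leftEl 1 * leftEl (x * y) := Subtype.ext (by
  show mkFun _ _ * mkFun _ _ = mkFun _ _ * mkFun _ _
  rw [mkFun_mul, mkFun_mul, ← mul_kronecker_mul, ← mul_kronecker_mul, one_mul, one_mul])

lemma rightEl_mul (x y : Matrix (Fin 3) (Fin 3) ℂ) :
    rightEl x * rightEl y = rightEl 1 * rightEl (x * y) := Subtype.ext (by
  show mkFun _ _ * mkFun _ _ = mkFun _ _ * mkFun _ _
  rw [mkFun_mul, mkFun_mul, ← mul_kronecker_mul, ← mul_kronecker_mul, one_mul, one_mul])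

lemma left_comm_right (x : Matrix (Fin 2) (Fin 2) ℂ) (y : Matrix (Fin 3) (Fin 3) ℂ) :
    leftEl x * rightEl y = rightEl y * leftEl x := Subtype.ext (by
  show mkFun _ _ * mkFun _ _ = mkFun _ _ * mkFun _ _
  rw [mkFun_mul, mkFun_mul, ← mul_kronecker_mul, ← mul_kronecker_mul, one_mul, mul_one, one_mul,
    mul_one, mul_comm])

lemma left_add_right : leftEl 1 + rightEl 1 = 1 := Subtype.ext (by
  show mkFun (1 - tt) ((1 : Matrix (Fin 2) (Fin 2) ℂ) ⊗ₖ (1 : Matrix (Fin 3) (Fin 3) ℂ)) +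
    mkFun tt ((1 : Matrix (Fin 2) (Fin 2) ℂ) ⊗ₖ (1 : Matrix (Fin 3) (Fin 3) ℂ)) = 1
  rw [one_kronecker_one]
  ext t : 1
  show (1 - tt) t • CStarMatrix.ofMatrix (1 : Bridge.Mat6) + tt t • CStarMatrix.ofMatrix 1 = 1
  rw [← add_smul, ContinuousMap.sub_apply, sub_add_cancel, ContinuousMap.one_apply, one_smul]
  rfl)

/-- The order zero map of `M₂` through `I(2,3)`. -/
noncomputable def leftOZ {B : Type*} [CStarAlgebra B] (ψ : dimDrop23 →⋆ₐ[ℂ] B) :
    OZ (Fin 2) B where
  f :=
    { toFun := fun a => ψ (leftEl a)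
      map_add' := fun a b => by rw [leftEl_add, map_add]
      map_smul' := fun r a => by rw [leftEl_smul, map_smul, RingHom.id_apply] }
  star_map x := by
    show star (ψ _) = ψ _
    rw [← map_star, star_leftEl]
  mul_map x y := by
    show ψ _ * ψ _ = ψ _ * ψ _
    rw [← map_mul, ← map_mul, leftEl_mul]

/-- The order zero map of `M₃` through `I(2,3)`. -/
noncomputable def rightOZ {B : Type*} [CStarAlgebra B] (ψ : dimDrop23 →⋆ₐ[ℂ] B) :
    OZ (Fin 3) B where
  f :=
    { toFun := fun a => ψ (rightEl a)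
      map_add' := fun a b => by rw [rightEl_add, map_add]
      map_smul' := fun r a => by rw [rightEl_smul, map_smul, RingHom.id_apply] }
  star_map x := by
    show star (ψ _) = ψ _
    rw [← map_star, star_rightEl]
  mul_map x y := by
    show ψ _ * ψ _ = ψ _ * ψ _
    rw [← map_mul, ← map_mul, rightEl_mul]

lemma map_slotProd {S S' F : Type*} [Ring S] [StarRing S] [Ring S'] [StarRing S'] [FunLike F S S']
    [RingHomClass F S S'] (g : F) {n : ℕ} (X : Fin n → S) :
    g (slotProd X) = slotProd (g ∘ X) := by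
  rw [slotProd, slotProd, map_list_prod, List.map_ofFn]

variable {B : Type*} [CStarAlgebra B]

lemma OZ.map_mem {ι : Type*} [Fintype ι] [DecidableEq ι] (φ : OZ ι B) {D : StarSubalgebra ℂ B}
    (h : ∀ i j, φ.f (single i j 1) ∈ D) (x : Matrix ι ι ℂ) : φ.f x ∈ D := by
  rw [OZ.sum_single φ x]
  exact sum_mem fun i _ => sum_mem fun j _ => D.smul_mem (h i j) _

/-- Powers of the two matrix algebras. -/
theorem nonempty_hom_pow (hB : HasCopies B) (ψ : dimDrop23 →⋆ₐ[ℂ] B) (a b : ℕ) :
    Nonempty (dimDrop (Fin a → Fin 2) (Fin b → Fin 3) →⋆ₐ[ℂ] B) := by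
  classical
  let L := leftOZ ψ
  let R := rightOZ ψ
  let F : Finset B := (Finset.univ.image fun i : Fin 2 × Fin 2 => L.f (single i.1 i.2 1)) ∪
    (Finset.univ.image fun i : Fin 3 × Fin 3 => R.f (single i.1 i.2 1))
  have hL : ∀ x, L.f x ∈ cstarGen (F : Set B) := L.map_mem fun i j => mem_cstarGen_of_mem
    (Finset.mem_coe.2 (Finset.mem_union_left _ (Finset.mem_image.2 ⟨(i, j), Finset.mem_univ _, rfl⟩)))
  have hR : ∀ x, R.f x ∈ cstarGen (F : Set B) := R.map_mem fun i j => mem_cstarGen_of_mem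
    (Finset.mem_coe.2 (Finset.mem_union_right _ (Finset.mem_image.2 ⟨(i, j), Finset.mem_univ _, rfl⟩)))
  let L' := L.restrict _ hL
  let R' := R.restrict _ hR
  obtain ⟨φ, hφ, -⟩ := hB.exists_copies F ∅ (a * b)
  let e : Fin a × Fin b ≃ Fin (a * b) := finProdFinEquiv
  let al : Fin a × Fin b → OZ (Fin 2) B := fun p => L'.map (φ (e p))
  let bl : Fin a × Fin b → OZ (Fin 3) B := fun p => R'.map (φ (e p))
  have hLR : ∀ x y, Commute (L'.f x) (R'.f y) := fun x y =>
    Subtype.ext (Commute.map (show Commute (leftEl x) (rightEl y) from left_comm_right x y) ψ).eq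
  have hLR1 : L'.f 1 + R'.f 1 = 1 := Subtype.ext (by
    show ψ (leftEl 1) + ψ (rightEl 1) = 1
    rw [← map_add, left_add_right, map_one])
  have hab : ∀ p q, Comm (al p) (bl q) := fun p q x y => by
    by_cases h : p = q
    · subst h; exact (hLR x y).map (φ (e p))
    · exact hφ _ _ (fun h' => h (e.injective h')) _ _
  have haa : ∀ p q, p ≠ q → Comm (al p) (al q) := fun p q h x y =>
    hφ _ _ (fun h' => h (e.injective h')) _ _
  have hbb : ∀ p q, p ≠ q → Comm (bl p) (bl q) := fun p q h x y =>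
    hφ _ _ (fun h' => h (e.injective h')) _ _
  have hsum : ∀ p, (al p).f 1 + (bl p).f 1 = 1 := fun p => by
    show φ (e p) (L'.f 1) + φ (e p) (R'.f 1) = 1
    rw [← map_add, hLR1, map_one]
  -- rows and columns
  choose A hA1 hAc using fun r : Fin a => OZ.exists_join b (fun c => al (r, c))
    fun c c' h => haa _ _ fun h' => h (congrArg Prod.snd h')
  choose C hC1 hCc using fun c : Fin b => OZ.exists_join a (fun r => bl (r, c))
    fun r r' h => hbb _ _ fun h' => h (congrArg Prod.fst h')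
  have hAA : ∀ r r', r ≠ r' → Comm (A r) (A r') := fun r r' h x y =>
    hAc r' _ (fun c' y' => (hAc r _ (fun c x' =>
      (haa _ _ (fun h' => h (congrArg Prod.fst h')) x' y').symm) x).symm) y
  have hCC : ∀ c c', c ≠ c' → Comm (C c) (C c') := fun c c' h x y =>
    hCc c' _ (fun r' y' => (hCc c _ (fun r x' =>
      (hbb _ _ (fun h' => h (congrArg Prod.snd h')) x' y').symm) x).symm) y
  obtain ⟨TA, hTA1, hTAc⟩ := OZ.exists_tens a A hAA
  obtain ⟨TC, hTC1, hTCc⟩ := OZ.exists_tens b C hCC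
  have hTA : ∀ z : B, (∀ p x, Commute z ((al p).f x)) → ∀ X, Commute z (TA.f X) := fun z hz X =>
    hTAc z (fun r x => hAc r z (fun c => hz (r, c)) x) X
  have hTC : ∀ z : B, (∀ p x, Commute z ((bl p).f x)) → ∀ X, Commute z (TC.f X) := fun z hz X =>
    hTCc z (fun c x => hCc c z (fun r => hz (r, c)) x) X
  have hAC : Comm TA TC := fun X Y =>
    hTC _ (fun q y => ((hTA _ (fun p x => (hab p q x y).symm)) X).symm) Y
  -- the commutative algebra of the weights
  let S : Set B := Set.range fun p => (al p).f 1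
  let D := cstarGen S
  have hmemw : ∀ p, (al p).f 1 ∈ D := fun p => mem_cstarGen_of_mem ⟨p, rfl⟩
  have hbl : ∀ p, (bl p).f 1 = 1 - (al p).f 1 := fun p => eq_sub_of_add_eq' (hsum p)
  have hDa : ∀ z ∈ D, ∀ p x, Commute z ((al p).f x) := by
    intro z hz p x
    refine (commute_of_mem_cstarGen ?_ ?_ hz).symm
    all_goals rintro _ ⟨q, rfl⟩
    rotate_left
    on_goal 1 => rw [OZ.star_one]
    all_goals
      by_cases h : p = q
      · subst h; exact ((al p).commute_one x).symm
      · exact haa p q h x 1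
  have hDb : ∀ z ∈ D, ∀ p y, Commute z ((bl p).f y) := by
    intro z hz p y
    refine (commute_of_mem_cstarGen ?_ ?_ hz).symm
    all_goals rintro _ ⟨q, rfl⟩
    rotate_left
    on_goal 1 => rw [OZ.star_one]
    all_goals exact (hab q p 1 y).symm
  have hDcomm : ∀ x ∈ D, ∀ y ∈ D, Commute x y := fun x hx y hy =>
    commute_of_mem_cstarGen (y := x) (by rintro _ ⟨q, rfl⟩; exact hDa x hx q 1)
      (by rintro _ ⟨q, rfl⟩; rw [OZ.star_one]; exact hDa x hx q 1) hy
  let _ : CommCStarAlgebra D :=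
    { cstarGen.instCStarAlgebra S with
      mul_comm := fun x y => Subtype.ext (hDcomm x x.2 y y.2).eq }
  let w : Fin a × Fin b → D := fun p => ⟨(al p).f 1, hmemw p⟩
  let H : D := slotProd fun r : Fin a => joinW fun c : Fin b => w (r, c)
  let K : D := slotProd fun c : Fin b => joinW fun r : Fin a => 1 - w (r, c)
  have eH : TA.f 1 = (H : B) := by
    rw [hTA1, show (H : B) = D.subtype H from rfl, map_slotProd]
    congr 1; funext r
    simp only [Function.comp_apply, map_joinW, hA1]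
    rfl
  have eK : TC.f 1 = (K : B) := by
    rw [hTC1, show (K : B) = D.subtype K from rfl, map_slotProd]
    congr 1; funext c
    simp only [Function.comp_apply, map_joinW, hC1, hbl]
    rfl
  have hsH : star H = H := Subtype.ext (by
    show star (H : B) = (H : B); rw [← eH, OZ.star_one])
  have hsK : star K = K := Subtype.ext (by
    show star (K : B) = (K : B); rw [← eK, OZ.star_one])
  have hchar : ∀ χ : WeakDual.characterSpace ℂ D, ∃ h k : ℝ, χ H = (h : ℂ) ∧ χ K = (k : ℂ) ∧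
      0 ≤ h ∧ 0 ≤ k ∧ 0 < h + k := by
    intro χ
    have hx : ∀ p, ∃ x : ℝ, χ (w p) = (x : ℂ) := fun p => ⟨(χ (w p)).re, by
      have : star (w p) = w p := Subtype.ext ((al p).star_one)
      have := (map_star χ (w p)).symm.trans (by rw [this])
      exact (Complex.conj_eq_iff_re.1 this).symm⟩
    choose x hx using hx
    let h : ℝ := ∏ r : Fin a, joinW fun c : Fin b => x (r, c)
    let k : ℝ := ∏ c : Fin b, joinW fun r : Fin a => 1 - x (r, c)
    have h0 : 0 ≤ h := Finset.prod_nonneg fun r _ => joinW_nonneg _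
    have k0 : 0 ≤ k := Finset.prod_nonneg fun r _ => joinW_nonneg _
    refine ⟨h, k, ?_, ?_, h0, k0, (add_nonneg h0 k0).lt_of_ne fun e => ?_⟩
    · show χ (slotProd _) = _
      rw [map_slotProd χ, slotProd, List.prod_ofFn, Complex.ofReal_prod]
      refine Finset.prod_congr rfl fun r _ => ?_
      rw [Function.comp_apply, map_joinW χ,
        show ((joinW fun c => x (r, c) : ℝ) : ℂ) = Complex.ofRealHom (joinW fun c => x (r, c)) from
          rfl, map_joinW]
      congr 1; funext c; simp [hx]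
    · show χ (slotProd _) = _
      rw [map_slotProd χ, slotProd, List.prod_ofFn, Complex.ofReal_prod]
      refine Finset.prod_congr rfl fun c _ => ?_
      rw [Function.comp_apply, map_joinW χ,
        show ((joinW fun r => 1 - x (r, c) : ℝ) : ℂ) =
          Complex.ofRealHom (joinW fun r => 1 - x (r, c)) from rfl, map_joinW]
      congr 1; funext r; simp [hx]
    · obtain ⟨eh, ek⟩ := (add_eq_zero_iff_of_nonneg h0 k0).1 e.symm
      obtain ⟨r, -, hr⟩ := Finset.prod_eq_zero_iff.1 eh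
      obtain ⟨c, -, hc⟩ := Finset.prod_eq_zero_iff.1 ek
      have e1 := joinW_eq_zero hr c
      have e2 := joinW_eq_zero hc r
      linarith
  have hU : IsUnit (H + K) := by
    by_contra hn
    obtain ⟨χ, hχ⟩ := WeakDual.CharacterSpace.exists_apply_eq_zero hn
    obtain ⟨h, k, eh, ek, -, -, hp⟩ := hchar χ
    rw [map_add, eh, ek, ← Complex.ofReal_add, Complex.ofReal_eq_zero] at hχ
    linarith
  obtain ⟨u, hu⟩ : ∃ u : D, u * (H + K) = 1 := ⟨_, hU.val_inv_mul⟩
  have hsu : star u = u := by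
    have : (H + K) * star u = 1 := by
      have := congrArg star hu
      rwa [star_mul, star_add, hsH, hsK, _root_.star_one] at this
    exact (left_inv_eq_right_inv hu this).symm
  have hsu' : star (u : B) = (u : B) := congrArg Subtype.val hsu
  let α := TA.scale (u : B) hsu' (hTA _ (hDa _ u.2))
  let β := TC.scale (u : B) hsu' (hTC _ (hDb _ u.2))
  have hαβ : Comm α β := fun X Y => by
    have c1 : Commute (TA.f X) (u : B) := (hTA _ (hDa _ u.2) X).symm
    have c2 : Commute (u : B) (TC.f Y) := hTC _ (hDb _ u.2) Y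
    exact ((Commute.refl (u : B)).mul_left c1).mul_right (c2.mul_left (hAC X Y))
  have hone : α.f 1 + β.f 1 = 1 := by
    show (u : B) * TA.f 1 + (u : B) * TC.f 1 = 1
    rw [eH, eK]
    have := congrArg Subtype.val hu
    simpa [mul_add] using this
  let T : D := u * K
  have eT : β.f 1 = (T : B) := by
    show (u : B) * TC.f 1 = _
    rw [eK]; rfl
  have hTs : IsSelfAdjoint (T : B) := by
    rw [← eT]; exact β.star_one
  have hspec : ∀ z ∈ spectrum ℂ (T : B), z.re ∈ Set.Icc (0 : ℝ) 1 := by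
    intro z hz
    obtain ⟨χ, rfl⟩ := WeakDual.CharacterSpace.mem_spectrum_iff_exists.1
      (AlgHom.spectrum_apply_subset D.subtype T hz)
    obtain ⟨h, k, eh, ek, h0, k0, hp⟩ := hchar χ
    have hχ : χ u * ((h : ℂ) + k) = 1 := by rw [← eh, ← ek, ← map_add, ← map_mul, hu, map_one]
    have : χ T = ((k / (h + k) : ℝ) : ℂ) := by
      rw [map_mul, ek, Complex.ofReal_div, eq_div_iff (by exact_mod_cast hp.ne'), Complex.ofReal_add]
      linear_combination (k : ℂ) * hχ
    rw [this, Complex.ofReal_re]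
    exact ⟨by positivity, (div_le_one hp).2 (by linarith)⟩
  let pr : C(ℝ, unitInterval) := ⟨Set.projIcc 0 1 zero_le_one, continuous_projIcc⟩
  let Γ : C(unitInterval, ℂ) →⋆ₐ[ℂ] B :=
    (Bridge.fn hTs).comp (ContinuousMap.compStarAlgHom' ℂ ℂ pr)
  have hΓT : Γ tau = β.f 1 := by
    rw [eT]
    conv_rhs => rw [← Bridge.fn_X₁ hTs]
    refine Bridge.fn_congr hTs fun z hz => ?_
    show ((((Set.projIcc (0 : ℝ) 1 zero_le_one z.re : unitInterval) : ℝ)) : ℂ) = _
    rw [Set.projIcc_of_mem _ (hspec z hz)]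
    rfl
  refine nonempty_hom_of_oz hαβ hΓT hone (fun g X => Bridge.fn_commute hTs ?_ _)
    (fun g Y => Bridge.fn_commute hTs ?_ _)
  · exact ((hDcomm _ T.2 _ u.2).mul_right (hTA _ (hDa _ T.2) X))
  · exact ((hDcomm _ T.2 _ u.2).mul_right (hTC _ (hDb _ T.2) Y))

end Vale.Agent.P101.Lit
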