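import Vale.Agent.P101.Lit.Model.Push

/-! P101: the connecting maps between stages. -/

namespace Vale.Agent.P101.Lit

open scoped unitInterval ComplexOrder

variable {A : Type*} [CStarAlgebra A] [PartialOrder A] [StarOrderedRing A]

/-- The connecting map from stage `i` to a later stage `l`. -/
noncomputable def conn {i l : ℕ} (h : i ≤ l) : St A (pp i) (qq i) →⋆ₐ[ℂ] St A (pp l) (qq l) :=
  Nat.leRecOn h (fun {k} f => (stepHom A k).comp f) (StarAlgHom.id ℂ _)

theorem conn_self {i : ℕ} (h : i ≤ i) (x : St A (pp i) (qq i)) : conn h x = x := by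
  unfold conn; rw [Nat.leRecOn_self]; rfl

theorem conn_succ {i l : ℕ} (h : i ≤ l) (h' : i ≤ l + 1) (x : St A (pp i) (qq i)) :
    conn h' x = stepHom A l (conn h x) := by
  unfold conn; rw [Nat.leRecOn_succ h]; rfl

theorem conn_push (i n : ℕ) (h : i ≤ i + n) (x : St A (pp i) (qq i)) :
    conn h x = push A i n x := by
  induction n with
  | zero => exact conn_self h x
  | succ n ih => rw [push_succ, ← ih (Nat.le_add_right i n)]; exact conn_succ _ _ x

theorem conn_conn {i k l : ℕ} (h : i ≤ k) (h' : k ≤ l) (x : St A (pp i) (qq i)) :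
    conn h' (conn h x) = conn (h.trans h') x := by
  induction h' with
  | refl => exact conn_self _ _
  | @step l hl ih => rw [conn_succ hl, ih, ← conn_succ (h.trans hl)]

theorem norm_conn {i l : ℕ} (h : i ≤ l) (x : St A (pp i) (qq i)) : ‖conn h x‖ = ‖x‖ := by
  obtain ⟨n, rfl⟩ := Nat.exists_eq_add_of_le h
  rw [conn_push, norm_push]

theorem conn_cst {i l : ℕ} (h : i ≤ l) (a : A) :
    conn h (cst A (pp i) (qq i) a) = cst A (pp l) (qq l) a := by
  obtain ⟨n, rfl⟩ := Nat.exists_eq_add_of_le h
  rw [conn_push, push_cst]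

end Vale.Agent.P101.Lit
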