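import Vale.Agent.P101.Lit.Approx
import Vale.Agent.P101.Lit.Conn
import Vale.Agent.P101.Lit.Transfer.MapSt
import Vale.Agent.P101.Lit.Intertwine.Limit

/-! P101: the intertwining argument. -/

namespace Vale.Agent.P101.Lit

open scoped unitInterval ComplexOrder

variable {A : Type*} [CStarAlgebra A] [PartialOrder A] [StarOrderedRing A]

theorem isZStable_of_absorbs [TopologicalSpace.SeparableSpace A] (hA : Absorbs A) : IsZStable A := by
  have : ∀ k, TopologicalSpace.SeparableSpace (St A (pp k) (qq k)) := fun k => separableSpace_St _ _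
  obtain ⟨j, hjn, hjc, hjd⟩ := exists_limit_maps (B := fun k => St A (pp k) (qq k))
    (fun h => conn h) (fun h h' x => conn_conn h h' x) (fun h x => norm_conn h x)
    (fun k => cst A (pp k) (qq k)) (fun h a => conn_cst h a) norm_cst
    (fun k F G ε hε => by
      obtain ⟨n, -, v, hv, hvF, hvG⟩ := hA F k G ε hε
      refine ⟨k + n, Nat.le_add_right k n, v, hv, hvF, fun x hx => ?_⟩
      obtain ⟨c, hc⟩ := hvG x hx
      refine ⟨c, le_of_eq_of_le ?_ hc⟩
      rw [← Intertwine.norm_conj hv (push A k n x - _), mul_sub (star v), sub_mul _ _ v,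
        Intertwine.conj_conj' hv, conn_push])
  refine ⟨j, hjn, fun i f => ⟨step_mem (stepOK_pp i) f.2, ?_⟩, hjd⟩
  refine Eq.trans (congrArg (j (i + 1)) ?_) (hjc i (i + 1) (Nat.le_succ i) f)
  exact ((conn_succ le_rfl _ f).trans (congrArg _ (conn_self _ f))).symm

end Vale.Agent.P101.Lit
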