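import Vale.Agent.P101.Assemble
import Vale.Agent.P101.Lit.Intertwine
import Vale.Agent.P101.Lit.Hom.Main
import Vale.Agent.P101.Lit.Model.Faithful

/-! P101: no characters on `F_ω(A)` implies that `A` is `Z`-stable. -/

namespace Vale.Agent.P101.Lit

open Filter
open scoped unitInterval ComplexOrder

theorem isZStable_of_characterless {A : Type*} [CStarAlgebra A] [PartialOrder A]
    [StarOrderedRing A] [TopologicalSpace.SeparableSpace A] {ω : Ultrafilter ℕ}
    (hω : (ω : Filter ℕ) ≤ atTop) (h : IsEmpty (FomegaCharacter A ω)) : IsZStable A := by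
  obtain ⟨c, s, hcs⟩ :=
    exists_dimDropPair (hasCopies_fomega hω) (isEmpty_fomegaCharacter_iff.1 h)
  refine isZStable_of_absorbs (absorbs_of_homs (ω := ω) fun i => ?_)
  exact nonempty_stageHom (hasCopies_fomega hω) hcs (by have := (expo_bounds i).1; omega)
    (expo_bounds i).2 (pp_eq i) (qq_eq i)

end Vale.Agent.P101.Lit
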