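import Vale.Agent.P101.Lit.Basic

/-! P101: a stage with coefficients is spanned, up to closure, by elementary tensors. -/

namespace Vale.Agent.P101.Lit

open scoped unitInterval ComplexOrder

namespace TensorAux

variable {B : Type*} [CStarAlgebra B] [PartialOrder B] [StarOrderedRing B] {p q : ℕ}

/-- The hat function at `k / K`. -/
noncomputable def hat (K k : ℕ) : C(I, ℝ) :=
  ⟨fun t => max 0 (1 - |K * (t : ℝ) - k|), by fun_prop⟩

theorem hat_apply (K k : ℕ) (t : I) : hat K k t = max 0 (1 - |K * (t : ℝ) - k|) := rfl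

theorem hat_zero {K k : ℕ} (hk : k ≠ 0) : hat K k 0 = 0 := by
  have : (1 : ℝ) ≤ k := by exact_mod_cast Nat.one_le_iff_ne_zero.2 hk
  simp [hat_apply, this]

theorem hat_one {K k : ℕ} (hk : k < K) : hat K k 1 = 0 := by
  have : (k : ℝ) + 1 ≤ K := by exact_mod_cast hk
  refine max_eq_left ?_
  simp only [Set.Icc.coe_one, mul_one]
  linarith [le_abs_self ((K : ℝ) - k)]

theorem hat_sum {K : ℕ} (hK : 0 < K) (t : I) :
    ∃ k, k < K ∧ (∀ i, i ≠ k → i ≠ k + 1 → hat K i t = 0) ∧
      hat K k t + hat K (k + 1) t = 1 ∧ |(t : ℝ) - k / K| ≤ 1 / K ∧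
        |(t : ℝ) - (k + 1 : ℕ) / K| ≤ 1 / K := by
  have hK' : (0 : ℝ) < K := Nat.cast_pos.2 hK
  obtain ⟨k, hkK, hk1, hk2⟩ : ∃ k, k < K ∧ (k : ℝ) ≤ K * t ∧ K * (t : ℝ) ≤ k + 1 := by
    rcases eq_or_lt_of_le (t.2.2 : (t : ℝ) ≤ 1) with h | h
    · refine ⟨K - 1, by omega, ?_, ?_⟩ <;> rw [h, Nat.cast_sub hK] <;> push_cast <;> linarith
    · refine ⟨⌊(K : ℝ) * t⌋₊, ?_, Nat.floor_le (mul_nonneg hK'.le t.2.1),
        (Nat.lt_floor_add_one _).le⟩
      rw [Nat.floor_lt (mul_nonneg hK'.le t.2.1)]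
      exact mul_lt_of_lt_one_right hK' h
  refine ⟨k, hkK, fun i hi hi' => ?_, ?_, ?_, ?_⟩
  · refine max_eq_left ?_
    rcases lt_or_ge i k with h | h
    · have : (i : ℝ) + 1 ≤ k := by exact_mod_cast h
      linarith [le_abs_self ((K : ℝ) * t - i)]
    · have : (k : ℝ) + 2 ≤ i := by exact_mod_cast (by omega : k + 2 ≤ i)
      linarith [neg_le_abs ((K : ℝ) * t - i)]
  · simp only [hat_apply]
    rw [abs_of_nonneg (by linarith), abs_of_nonpos (by push_cast; linarith),
      max_eq_right (by linarith), max_eq_right (by push_cast; linarith)]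
    push_cast; ring
  all_goals
    rw [sub_div' hK'.ne', abs_div, abs_of_pos hK', div_le_div_iff_of_pos_right hK', abs_le]
    push_cast
    constructor <;> linarith

/-- A function times a matrix of scalars. -/
noncomputable def scal (φ : C(I, ℝ)) (e : Ix p q → Ix p q → ℂ)
    (h : IsLeftEnd p q (fun x y => (φ 0 : ℂ) * e x y) ∧
      IsRightEnd p q (fun x y => (φ 1 : ℂ) * e x y)) : St ℂ p q :=
  ⟨⟨fun t => CStarMatrix.ofMatrix <| Matrix.of fun x y => (φ t : ℂ) * e x y,
    continuous_pi fun x => continuous_pi fun y =>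
      (Complex.continuous_ofReal.comp φ.continuous).mul continuous_const⟩, h.1, h.2⟩

variable (B p q) in
/-- The elementary tensors. -/
def tens : Set (St B p q) := {z | ∃ b h, z = cst B p q b * lift B p q h}

theorem exists_sum_of_mem {z : St B p q} (hz : z ∈ AddSubmonoid.closure (tens B p q)) :
    ∃ (n : ℕ) (b : Fin n → B) (h : Fin n → St ℂ p q),
      z = ∑ l, cst B p q (b l) * lift B p q (h l) := by
  induction hz using AddSubmonoid.closure_induction with
  | mem z hz =>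
    obtain ⟨b, h, rfl⟩ := hz
    exact ⟨1, fun _ => b, fun _ => h, by simp⟩
  | zero => exact ⟨0, Fin.elim0, Fin.elim0, by simp⟩
  | add z w _ _ hz hw =>
    obtain ⟨n, b, h, rfl⟩ := hz
    obtain ⟨m, c, g, rfl⟩ := hw
    exact ⟨n + m, Fin.append b c, Fin.append h g, by simp [Fin.sum_univ_add]⟩

theorem cst_lift_apply (b : B) (h : St ℂ p q) (t : I) (x y : Ix p q) :
    (↑(cst B p q b * lift B p q h) : Amb B p q) t x y = (h : Amb ℂ p q) t x y • b := by
  show ((cst B p q b : Amb B p q) t * (lift B p q h : Amb B p q) t) x y = _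
  simp [CStarMatrix.mul_apply, Algebra.smul_def, Algebra.commutes]

/-- A sum of tensors with prescribed entries. -/
theorem sum_entry {ι : Type*} (s : Finset ι) (z : ι → St B p q) (t : I) (x y : Ix p q) :
    (↑(∑ i ∈ s, z i) : Amb B p q) t x y = ∑ i ∈ s, (z i : Amb B p q) t x y := by
  classical
  induction s using Finset.induction with
  | empty => simp
  | insert a s ha ih =>
    simp only [Finset.sum_insert ha, ← ih]
    rfl

theorem exists_node (x : St B p q) {K k : ℕ} (hk : k ≤ K) (hK : 0 < K) (s : I)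
    (hs : (s : ℝ) = k / K) :
    ∃ z ∈ AddSubmonoid.closure (tens B p q), ∀ t u v,
      (z : Amb B p q) t u v = (hat K k t : ℂ) • (x : Amb B p q) s u v := by
  classical
  rcases eq_or_ne k 0 with rfl | h0
  · have hs0 : s = 0 := Subtype.ext (by simp [hs])
    subst hs0
    obtain ⟨a, ha⟩ := x.2.1
    let h : Fin p × Fin p → St ℂ p q := fun r =>
      scal (hat K 0) (fun u v => if u.2 = v.2 ∧ u.1 = r.1 ∧ v.1 = r.2 then 1 else 0)
        ⟨⟨fun i i' => (hat K 0 0 : ℂ) * if i = r.1 ∧ i' = r.2 then 1 else 0, fun u v => by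
          by_cases e : u.2 = v.2 <;> simp [e]⟩,
          ⟨fun _ _ => 0, fun u v => by simp [hat_one hK]⟩⟩
    refine ⟨∑ r, cst B p q (a r.1 r.2) * lift B p q (h r),
      sum_mem fun r _ => AddSubmonoid.subset_closure ⟨_, _, rfl⟩, fun t u v => ?_⟩
    have ha' : (x : Amb B p q) 0 u v = if u.2 = v.2 then a u.1 v.1 else 0 := ha u v
    rw [sum_entry, ha']
    simp only [cst_lift_apply]
    show ∑ r, ((hat K 0 t : ℂ) * _) • _ = _
    rw [Finset.sum_eq_single (u.1, v.1)]
    · by_cases e : u.2 = v.2 <;> simp [e]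
    · intro r _ hr
      have : ¬(u.2 = v.2 ∧ u.1 = r.1 ∧ v.1 = r.2) := fun e => hr (Prod.ext e.2.1.symm e.2.2.symm)
      simp [this]
    · simp
  rcases eq_or_lt_of_le hk with rfl | hlt
  · have hK' : (k : ℝ) ≠ 0 := Nat.cast_ne_zero.2 h0
    have hs1 : s = 1 := Subtype.ext (by simp [hs, hK'])
    subst hs1
    obtain ⟨b, hb⟩ := x.2.2
    let h : Fin q × Fin q → St ℂ p q := fun r =>
      scal (hat k k) (fun u v => if u.1 = v.1 ∧ u.2 = r.1 ∧ v.2 = r.2 then 1 else 0)
        ⟨⟨fun _ _ => 0, fun u v => by simp [hat_zero h0]⟩,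
          ⟨fun i i' => (hat k k 1 : ℂ) * if i = r.1 ∧ i' = r.2 then 1 else 0, fun u v => by
            by_cases e : u.1 = v.1 <;> simp [e]⟩⟩
    refine ⟨∑ r, cst B p q (b r.1 r.2) * lift B p q (h r),
      sum_mem fun r _ => AddSubmonoid.subset_closure ⟨_, _, rfl⟩, fun t u v => ?_⟩
    have hb' : (x : Amb B p q) 1 u v = if u.1 = v.1 then b u.2 v.2 else 0 := hb u v
    rw [sum_entry, hb']
    simp only [cst_lift_apply]
    show ∑ r, ((hat k k t : ℂ) * _) • _ = _
    rw [Finset.sum_eq_single (u.2, v.2)]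
    · by_cases e : u.1 = v.1 <;> simp [e]
    · intro r _ hr
      have : ¬(u.1 = v.1 ∧ u.2 = r.1 ∧ v.2 = r.2) := fun e => hr (Prod.ext e.2.1.symm e.2.2.symm)
      simp [this]
    · simp
  · let h : Ix p q × Ix p q → St ℂ p q := fun r =>
      scal (hat K k) (fun u v => if (u, v) = r then 1 else 0)
        ⟨⟨fun _ _ => 0, fun u v => by simp [hat_zero h0]⟩,
          ⟨fun _ _ => 0, fun u v => by simp [hat_one hlt]⟩⟩
    refine ⟨∑ r, cst B p q ((x : Amb B p q) s r.1 r.2) * lift B p q (h r),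
      sum_mem fun r _ => AddSubmonoid.subset_closure ⟨_, _, rfl⟩, fun t u v => ?_⟩
    rw [sum_entry]
    simp only [cst_lift_apply]
    show ∑ r : Ix p q × Ix p q, ((hat K k t : ℂ) * _) • _ = _
    rw [Finset.sum_eq_single (u, v)]
    · simp
    · intro r _ hr
      simp [Ne.symm hr]
    · simp

end TensorAux

open TensorAux in
theorem exists_tensor_approx {B : Type*} [CStarAlgebra B] [PartialOrder B] [StarOrderedRing B]
    {p q : ℕ} (x : St B p q) {ε : ℝ} (hε : 0 < ε) :
    ∃ (n : ℕ) (b : Fin n → B) (h : Fin n → St ℂ p q),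
      ‖x - ∑ l, cst B p q (b l) * lift B p q (h l)‖ ≤ ε := by
  obtain ⟨δ, hδ, hu⟩ := Metric.uniformContinuous_iff.1
    (CompactSpace.uniformContinuous_of_continuous (x : Amb B p q).continuous) ε hε
  obtain ⟨K', hK'⟩ := exists_nat_one_div_lt hδ
  set K := K' + 1 with hKdef
  have hK : 0 < K := Nat.succ_pos _
  have hKr : (0 : ℝ) < K := Nat.cast_pos.2 hK
  let node : ℕ → I := fun k => Set.projIcc 0 1 zero_le_one ((k : ℝ) / K)
  have hnode : ∀ k, k ≤ K → (node k : ℝ) = k / K := fun k hk => by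
    have : (k : ℝ) / K ∈ Set.Icc (0 : ℝ) 1 :=
      ⟨by positivity, (div_le_one hKr).2 (by exact_mod_cast hk)⟩
    simp only [node, Set.projIcc_of_mem _ this]
  choose z hz hzv using fun k : Fin (K + 1) =>
    exists_node x (Nat.lt_succ_iff.1 k.2) hK (node k) (hnode k (Nat.lt_succ_iff.1 k.2))
  obtain ⟨n, b, h, he⟩ := exists_sum_of_mem (sum_mem fun k (_ : k ∈ Finset.univ) => hz k)
  refine ⟨n, b, h, ?_⟩
  rw [← he]
  show ‖(↑(x - ∑ k, z k) : Amb B p q)‖ ≤ ε
  refine (ContinuousMap.norm_le _ hε.le).2 fun t => ?_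
  obtain ⟨k, hk, hoff, hone, hd0, hd1⟩ := hat_sum hK t
  set X := (x : Amb B p q) with hX
  have hval : (↑(x - ∑ i, z i) : Amb B p q) t = (hat K k t : ℂ) • (X t - X (node k))
      + (hat K (k + 1) t : ℂ) • (X t - X (node (k + 1))) := by
    ext u v
    show (X t) u v - (↑(∑ i, z i) : Amb B p q) t u v = _
    rw [sum_entry]
    simp only [hzv, ← hX]
    rw [Finset.sum_eq_add_of_mem (⟨k, by omega⟩ : Fin (K + 1)) ⟨k + 1, by omega⟩
      (Finset.mem_univ _) (Finset.mem_univ _) (by simp [Fin.ext_iff]) (fun i _ hi => by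
        rw [hoff i (fun e => hi.1 (Fin.ext e)) (fun e => hi.2 (Fin.ext e))]; simp)]
    show _ = (hat K k t : ℂ) • (X t u v - X (node k) u v)
      + (hat K (k + 1) t : ℂ) • (X t u v - X (node (k + 1)) u v)
    conv_lhs => arg 1; rw [← one_smul ℂ (X t u v), ← Complex.ofReal_one, ← hone,
      Complex.ofReal_add, add_smul]
    simp only [smul_sub]
    abel
  rw [hval]
  have a0 : ∀ i, 0 ≤ hat K i t := fun i => le_max_left _ _
  have hd : ∀ i, i ≤ K → |(t : ℝ) - i / K| ≤ 1 / K → ‖X t - X (node i)‖ ≤ ε := fun i hi h => by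
    rw [← dist_eq_norm]
    refine (hu ?_).le
    rw [Subtype.dist_eq, Real.dist_eq, hnode i hi]
    refine h.trans_lt ?_
    rw [hKdef]; push_cast
    exact hK'
  refine (norm_add_le _ _).trans ?_
  rw [norm_smul, norm_smul, Complex.norm_real, Complex.norm_real, Real.norm_of_nonneg (a0 _),
    Real.norm_of_nonneg (a0 _)]
  calc hat K k t * ‖X t - X (node k)‖ + hat K (k + 1) t * ‖X t - X (node (k + 1))‖
      ≤ hat K k t * ε + hat K (k + 1) t * ε :=
        add_le_add (mul_le_mul_of_nonneg_left (hd k hk.le hd0) (a0 _))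
          (mul_le_mul_of_nonneg_left (hd (k + 1) hk hd1) (a0 _))
    _ = ε := by rw [← add_mul, hone, one_mul]

end Vale.Agent.P101.Lit
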