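import Vale.Agent.P101.Lit.Defs

/-! P101: `Z`-stability and the facts about the scalar stages, written with entries only. -/

namespace Vale.Agent.P101.Lit

open scoped unitInterval ComplexOrder

variable {B : Type*} [CStarAlgebra B] [PartialOrder B] [StarOrderedRing B] {p q : ℕ}

/-- `f` belongs to `B ⊗ I(p,q)`. -/
def InSt (f : Amb B p q) : Prop :=
  IsLeftEnd p q (fun x y => f 0 x y) ∧ IsRightEnd p q (fun x y => f 1 x y)

/-- `h = f + g`. -/
def IsSum (f g h : Amb B p q) : Prop := ∀ t x y, h t x y = f t x y + g t x y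

/-- `h = c • f`. -/
def IsScal (c : ℂ) (f h : Amb B p q) : Prop := ∀ t x y, h t x y = c • f t x y

/-- `h = f * g`. -/
def IsProd (f g h : Amb B p q) : Prop := ∀ t x y, h t x y = ∑ z, f t x z * g t z y

/-- `h = star f`. -/
def IsAdj (f h : Amb B p q) : Prop := ∀ t x y, h t x y = star (f t y x)

/-- `f = 1`. -/
def IsUnitElt (f : Amb B p q) : Prop := ∀ t x y, f t x y = if x = y then 1 else 0

variable {C : Type*} [CStarAlgebra C]

/-- `j`, restricted to `B ⊗ I(p,q)`, is an isometric unital star homomorphism. -/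
def IsStageEmbedding (j : Amb B p q → C) : Prop :=
  (∀ f g h, InSt f → InSt g → InSt h →
      (IsSum f g h → j h = j f + j g) ∧ (IsProd f g h → j h = j f * j g)) ∧
    (∀ c f h, InSt f → InSt h →
      (IsScal c f h → j h = c • j f) ∧ (IsAdj f h → j h = star (j f))) ∧
    (∀ f, InSt f → (IsUnitElt f → j f = 1) ∧ ‖j f‖ = ‖f‖)

variable (A : Type*) [CStarAlgebra A] [PartialOrder A] [StarOrderedRing A]

/-- `A` is the inductive limit of the stages `A ⊗ I(pp i, qq i)` along `step`. -/
def IsZStablePlain : Prop :=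
  ∃ j : ∀ i, Amb A (pp i) (qq i) → A,
    (∀ i, IsStageEmbedding (j i)) ∧
    (∀ i f, InSt f → InSt (step (kl i) (kr i) f) ∧
      j (i + 1) (step (kl i) (kr i) f) = j i f) ∧
    ∀ (a : A) (r : ℝ), 0 < r → ∃ i f, InSt f ∧ ‖j i f - a‖ < r

/-- The composite of `step` from stage `i` to stage `i + n`, with scalar coefficients. -/
noncomputable def pushFun (i : ℕ) :
    ∀ n : ℕ, Amb ℂ (pp i) (qq i) → Amb ℂ (pp (i + n)) (qq (i + n))
  | 0 => fun g => g
  | n + 1 => fun g => step (kl (i + n)) (kr (i + n)) (pushFun i n g)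

/-- Simplicity of the scalar limit, on the stages. -/
def FurtherNowhereZero (i : ℕ) (g : Amb ℂ (pp i) (qq i)) : Prop :=
  (∃ t x y, g t x y ≠ 0) → ∃ n, ∀ t, ∃ x y, pushFun i n g t x y ≠ 0

/-- The normalised trace of the scalar stages becomes constant. -/
def FurtherConstantTrace (i : ℕ) (g : Amb ℂ (pp i) (qq i)) : Prop :=
  ∀ ε : ℝ, 0 < ε → ∃ n, ∀ s t,
    ‖(∑ x, pushFun i n g s x x) - ∑ x, pushFun i n g t x x‖ ≤ ε * (pp (i + n) * qq (i + n))

/-- The parameters meet the conditions of Jiang and Su, the path is one of theirs, and the scalar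
limit is simple with a unique trace. -/
def StageFacts (i : ℕ) : Prop :=
  (2 * qq i < kl i ∧ 2 * pp i < kr i ∧ Nat.Coprime (pp (i + 1)) (qq (i + 1))) ∧
    IsStepPath (pp i) (qq i) (kl i) (kr i) (stepPath (pp i) (qq i) (kl i) (kr i)) ∧
    ∀ g : Amb ℂ (pp i) (qq i), InSt g → FurtherNowhereZero i g ∧ FurtherConstantTrace i g

end Vale.Agent.P101.Lit
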