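import Vale.Agent.P101.Lit.Model.Faithful
import Vale.Agent.P101.Lit.Plain

/-! P101: the facts about the stages of the scalar limit. -/

namespace Vale.Agent.P101.Lit

open scoped unitInterval ComplexOrder

theorem pushFun_eq (i n : ℕ) (g : St ℂ (pp i) (qq i)) :
    pushFun i n (g : Amb ℂ (pp i) (qq i)) = (push ℂ i n g : Amb ℂ (pp (i + n)) (qq (i + n))) := by
  induction n with
  | zero => rfl
  | succ n ih =>
    show step (kl (i + n)) (kr (i + n)) (pushFun i n g) = _
    rw [ih]
    rfl

theorem stageFacts (i : ℕ) : StageFacts i := by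
  refine ⟨step_conditions i, isStepPath_stepPath (stepOK_pp i), fun g hg => ⟨fun hne => ?_, fun ε hε => ?_⟩⟩
  · obtain ⟨t, x, y, hxy⟩ := hne
    obtain ⟨n, hn⟩ := exists_push_ne_zero i ⟨g, hg⟩ fun h0 => hxy (by
      rw [show g = 0 from congrArg Subtype.val h0]
      rfl)
    refine ⟨n, fun t => ?_⟩
    have := hn t
    rw [← pushFun_eq] at this
    by_contra hall
    push Not at hall
    exact this (CStarMatrix.ext hall)
  · obtain ⟨n, hn⟩ := exists_push_trace i ⟨g, hg⟩ hε
    refine ⟨n, fun s t => ?_⟩
    have := hn s t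
    simp only [← pushFun_eq, Finset.sum_sub_distrib] at this
    exact this

end Vale.Agent.P101.Lit
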