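import Vale.Agent.P101.Lit.Transfer
import Vale.Agent.P101.Lit.Approx.Sum
import Vale.Agent.P101.Lit.Flip.Main
import Vale.Agent.P101.Lit.Tensor

/-! P101: every stage element is almost absorbed into `A` further on. -/

namespace Vale.Agent.P101.Lit

open scoped unitInterval ComplexOrder

/-- The absorption property. -/
def Absorbs (A : Type*) [CStarAlgebra A] [PartialOrder A] [StarOrderedRing A] : Prop :=
  ∀ (F : Finset A) (i : ℕ) (X : Finset (St A (pp i) (qq i))) (ε : ℝ), 0 < ε →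
    ∃ n, 1 ≤ n ∧ ∃ v ∈ unitary (St A (pp (i + n)) (qq (i + n))),
      (∀ a ∈ F, ‖v * cst A _ _ a - cst A _ _ a * v‖ ≤ ε) ∧
      ∀ x ∈ X, ∃ c : A, ‖push A i n x - v * cst A _ _ c * star v‖ ≤ ε

variable {A : Type*} [CStarAlgebra A] [PartialOrder A] [StarOrderedRing A] {ω : Ultrafilter ℕ}

open ApproxAux in
theorem absorbs_of_homs (hψ : ∀ i, Nonempty (St ℂ (pp i) (qq i) →⋆ₐ[ℂ] Fomega A ω)) :
    Absorbs A := by
  classical
  intro F i X ε hε
  choose N b h hx using fun x : St A (pp i) (qq i) => exists_tensor_approx x (half_pos hε)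
  set G₀ : Finset (St ℂ (pp i) (qq i)) := X.biUnion fun x => Finset.univ.image (h x) with hG₀
  set F' : Finset A := F ∪ X.biUnion fun x => Finset.univ.image (b x) with hF'
  have hnn : ∀ y l, 0 ≤ 16 * ‖b y l‖ + 8 * ‖h y l‖ + 128 := fun y l => by
    linarith [norm_nonneg (b y l), norm_nonneg (h y l)]
  obtain ⟨M, hM⟩ : ∃ M : ℝ, M = 1 + ∑ x ∈ X, ∑ l, (16 * ‖b x l‖ + 8 * ‖h x l‖ + 128) := ⟨_, rfl⟩
  have hM0 : 0 < M := by
    rw [hM]
    exact add_pos_of_pos_of_nonneg one_pos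
      (Finset.sum_nonneg fun y _ => Finset.sum_nonneg fun l _ => hnn y l)
  set δ : ℝ := min (min 1 (ε / 8)) (ε / (2 * M)) with hδ
  have hδ0 : 0 < δ := lt_min (lt_min one_pos (by linarith)) (div_pos hε (by linarith))
  have hδ1 : δ ≤ 1 := (min_le_left _ _).trans (min_le_left _ _)
  have hδ8 : 8 * δ ≤ ε := by
    linarith [(min_le_left (min 1 (ε / 8)) (ε / (2 * M))).trans (min_le_right _ _)]
  have hδM : M * δ ≤ ε / 2 := by
    have h1 := mul_le_mul_of_nonneg_left (min_le_right (min 1 (ε / 8)) (ε / (2 * M))) hM0.le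
    refine h1.trans (le_of_eq ?_)
    field_simp
  obtain ⟨n, hn, u, hu⟩ := exists_flow i G₀ hδ0
  obtain ⟨W, hW⟩ := exists_flip (G₀.finite_toSet.image _) hδ0 hu
  obtain ⟨ψ⟩ := hψ (i + n)
  obtain ⟨v, hv, hvF, hvG⟩ := exists_transfer ψ (G₀.finite_toSet.image _)
    (mul_pos (by norm_num) hδ0) hW F'
  refine ⟨n, hn, v, hv, fun a ha => (hvF a (Finset.mem_union_left _ ha)).trans hδ8, fun x hxX => ?_⟩
  have hg : ∀ l, ∃ c : A, ‖lift A _ _ (push ℂ i n (h x l)) - v * cst A _ _ c * star v‖ ≤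
      2 * (8 * δ) := fun l => hvG _ ⟨h x l, Finset.mem_biUnion.2
        ⟨x, hxX, Finset.mem_image.2 ⟨l, Finset.mem_univ _, rfl⟩⟩, rfl⟩
  choose c hc using hg
  refine ⟨∑ l, b x l * c l, ?_⟩
  have hfirst : ‖push A i n x -
      ∑ l, cst A _ _ (b x l) * lift A _ _ (push ℂ i n (h x l))‖ ≤ ε / 2 := by
    have e : ∑ l, cst A _ _ (b x l) * lift A _ _ (push ℂ i n (h x l)) =
        push A i n (∑ l, cst A _ _ (b x l) * lift A _ _ (h x l)) := by
      simp only [map_sum, map_mul, push_cst, push_lift]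
    rw [e, ← map_sub, norm_push]
    exact hx x
  have key := sum_le (v := v) hfirst fun l => term_le hv (B := cst A _ _ (b x l))
    (C := cst A _ _ (c l)) hδ0.le hδ1
    (NonUnitalStarAlgHom.norm_apply_le _ (b x l))
    ((NonUnitalStarAlgHom.norm_apply_le (lift A _ _) _).trans (norm_push i n (h x l)).le) (hc l)
    (hvF _ (Finset.mem_union_right _ (Finset.mem_biUnion.2
      ⟨x, hxX, Finset.mem_image.2 ⟨l, Finset.mem_univ _, rfl⟩⟩)))
  have e2 : cst A (pp (i + n)) (qq (i + n)) (∑ l, b x l * c l) =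
      ∑ l, cst A _ _ (b x l) * cst A _ _ (c l) := by simp only [map_sum, map_mul]
  rw [e2]
  refine key.trans ?_
  rw [← Finset.mul_sum]
  have h0 := Finset.single_le_sum (f := fun y => ∑ l, (16 * ‖b y l‖ + 8 * ‖h y l‖ + 128))
    (fun y _ => Finset.sum_nonneg fun l _ => hnn y l) hxX
  have h1 := mul_le_mul_of_nonneg_left (h0.trans (le_of_lt (lt_one_add _))) hδ0.le
  rw [← hM, mul_comm δ M] at h1
  linarith

end Vale.Agent.P101.Lit
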