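import Mathlib

/-!
# P101: matrix-valued dimension drop stages and the Jiang-Su connecting maps

`St B p q` is `B ⊗ I(p,q)` written as matrix-valued functions on the interval. `step` is the
connecting map of Jiang and Su from `(p,q)` to `(k₀ p, k₁ q)`, for the sequence `(pp i, qq i)`.
-/

namespace Vale.Agent.P101.Lit

open scoped unitInterval

/-- The index set of `M_p ⊗ M_q`. -/
abbrev Ix (p q : ℕ) := Fin p × Fin q

/-- Continuous functions from the interval to `M_p ⊗ M_q ⊗ B`. -/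
abbrev Amb (B : Type*) [CStarAlgebra B] [PartialOrder B] [StarOrderedRing B] (p q : ℕ) :=
  C(I, CStarMatrix (Ix p q) (Ix p q) B)

section St

variable (B : Type*) [CStarAlgebra B] [PartialOrder B] [StarOrderedRing B] (p q : ℕ)

/-- Left end condition: the value is `a ⊗ 1_q`. -/
def IsLeftEnd {R : Type*} [Zero R] (m : Ix p q → Ix p q → R) : Prop :=
  ∃ a : Fin p → Fin p → R, ∀ x y, m x y = if x.2 = y.2 then a x.1 y.1 else 0

/-- Right end condition: the value is `1_p ⊗ b`. -/
def IsRightEnd {R : Type*} [Zero R] (m : Ix p q → Ix p q → R) : Prop :=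
  ∃ b : Fin q → Fin q → R, ∀ x y, m x y = if x.1 = y.1 then b x.2 y.2 else 0

/-- The stage `B ⊗ I(p,q)`. -/
def St : StarSubalgebra ℂ (Amb B p q) where
  carrier := {f | IsLeftEnd p q (fun x y => f 0 x y) ∧ IsRightEnd p q (fun x y => f 1 x y)}
  mul_mem' := by
    rintro f g ⟨⟨a, ha⟩, b, hb⟩ ⟨⟨a', ha'⟩, b', hb'⟩
    refine ⟨⟨fun i i' => ∑ l, a i l * a' l i', fun x y => ?_⟩,
      ⟨fun i i' => ∑ l, b i l * b' l i', fun x y => ?_⟩⟩
    · simp only [ContinuousMap.mul_apply, CStarMatrix.mul_apply, Fintype.sum_prod_type, ha, ha']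
      by_cases h : x.2 = y.2 <;> simp [h]
    · simp only [ContinuousMap.mul_apply, CStarMatrix.mul_apply, Fintype.sum_prod_type_right, hb,
        hb']
      by_cases h : x.1 = y.1 <;> simp [h]
  add_mem' := by
    rintro f g ⟨⟨a, ha⟩, b, hb⟩ ⟨⟨a', ha'⟩, b', hb'⟩
    refine ⟨⟨fun i i' => a i i' + a' i i', fun x y => ?_⟩,
      ⟨fun i i' => b i i' + b' i i', fun x y => ?_⟩⟩
    · simp only [ContinuousMap.add_apply, CStarMatrix.add_apply, ha, ha']
      split_ifs <;> simp
    · simp only [ContinuousMap.add_apply, CStarMatrix.add_apply, hb, hb']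
      split_ifs <;> simp
  algebraMap_mem' := by
    intro r
    refine ⟨⟨fun i i' => if i = i' then algebraMap ℂ B r else 0, fun x y => ?_⟩,
      ⟨fun i i' => if i = i' then algebraMap ℂ B r else 0, fun x y => ?_⟩⟩
    · simp only [Algebra.algebraMap_eq_smul_one, ContinuousMap.smul_apply, ContinuousMap.one_apply,
        CStarMatrix.smul_apply, CStarMatrix.one_apply, Prod.ext_iff]
      split_ifs <;> simp_all
    · simp only [Algebra.algebraMap_eq_smul_one, ContinuousMap.smul_apply, ContinuousMap.one_apply,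
        CStarMatrix.smul_apply, CStarMatrix.one_apply, Prod.ext_iff]
      split_ifs <;> simp_all
  star_mem' := by
    rintro f ⟨⟨a, ha⟩, b, hb⟩
    refine ⟨⟨fun i i' => star (a i' i), fun x y => ?_⟩,
      ⟨fun i i' => star (b i' i), fun x y => ?_⟩⟩
    · simp only [ContinuousMap.star_apply, CStarMatrix.star_apply, ha, eq_comm (a := y.2)]
      split_ifs <;> simp
    · simp only [ContinuousMap.star_apply, CStarMatrix.star_apply, hb, eq_comm (a := y.1)]
      split_ifs <;> simp

end St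

section Step

variable (p q k₀ k₁ : ℕ)

/-- Number of eigenvalue functions `t ↦ t/2`. -/
def r₀ : ℕ := k₁ * (k₀ % q)

/-- Number of eigenvalue functions `t ↦ (t+1)/2`. -/
def r₁ : ℕ := k₀ * (k₁ % p)

/-- The eigenvalue functions, listed. -/
abbrev Wd := Fin (r₀ q k₀ k₁) ⊕ Fin (k₀ * k₁ - r₀ q k₀ k₁ - r₁ p k₀ k₁) ⊕ Fin (r₁ p k₀ k₁)

/-- The eigenvalue function of a word. -/
noncomputable def xi : Wd p q k₀ k₁ → C(I, I)
  | .inl _ => ⟨fun t => ⟨(t : ℝ) / 2, by constructor <;> linarith [t.2.1, t.2.2]⟩, by fun_prop⟩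
  | .inr (.inl _) => ContinuousMap.const I ⟨1 / 2, by constructor <;> norm_num⟩
  | .inr (.inr _) =>
      ⟨fun t => ⟨((t : ℝ) + 1) / 2, by constructor <;> linarith [t.2.1, t.2.2]⟩, by fun_prop⟩

variable {p q k₀ k₁}

/-- The entry `(x,y)` of `U diag(F_w) U*`. -/
def stepVal {R : Type*} [AddCommMonoid R] [Module ℂ R]
    (U : Matrix (Ix (k₀ * p) (k₁ * q)) (Ix p q × Wd p q k₀ k₁) ℂ)
    (F : Wd p q k₀ k₁ → Ix p q → Ix p q → R) (x y : Ix (k₀ * p) (k₁ * q)) : R :=
  ∑ w, ∑ i, ∑ i', (U x (i, w) * star (U y (i', w))) • F w i i'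

variable (p q k₀ k₁)

/-- A continuous path of unitaries conjugating the endpoint data into endpoint data. -/
def IsStepPath (U : C(I, Matrix (Ix (k₀ * p) (k₁ * q)) (Ix p q × Wd p q k₀ k₁) ℂ)) : Prop :=
  (∀ t, (U t).conjTranspose * U t = 1 ∧ U t * (U t).conjTranspose = 1) ∧
    (∀ a M : Ix p q → Ix p q → ℂ, IsLeftEnd p q a →
      IsLeftEnd (k₀ * p) (k₁ * q) (stepVal (U 0) fun w => Sum.elim (fun _ => a) (fun _ => M) w)) ∧
    (∀ M b : Ix p q → Ix p q → ℂ, IsRightEnd p q b →
      IsRightEnd (k₀ * p) (k₁ * q)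
        (stepVal (U 1) fun w => Sum.elim (fun _ => M) (Sum.elim (fun _ => M) fun _ => b) w))

open Classical in
/-- The chosen path (one exists under the arithmetic conditions of Jiang and Su). -/
noncomputable def stepPath : C(I, Matrix (Ix (k₀ * p) (k₁ * q)) (Ix p q × Wd p q k₀ k₁) ℂ) :=
  Classical.epsilon (IsStepPath p q k₀ k₁)

variable {p q} {B : Type*} [CStarAlgebra B] [PartialOrder B] [StarOrderedRing B]

/-- The connecting map `f ↦ U diag(f ∘ ξ_w) U*`. -/
noncomputable def step (f : Amb B p q) : Amb B (k₀ * p) (k₁ * q) :=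
  ⟨fun t => CStarMatrix.ofMatrix <| Matrix.of fun x y =>
      stepVal (stepPath p q k₀ k₁ t) (fun w i i' => f (xi p q k₀ k₁ w t) i i') x y, by
    refine continuous_pi fun x => continuous_pi fun y => ?_
    show Continuous fun t => ∑ w, ∑ i, ∑ i',
      (stepPath p q k₀ k₁ t x (i, w) * star (stepPath p q k₀ k₁ t y (i', w))) •
        (f (xi p q k₀ k₁ w t) i i' : B)
    refine continuous_finsetSum _ fun w _ => continuous_finsetSum _ fun i _ =>
      continuous_finsetSum _ fun i' _ => ?_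
    exact (((continuous_apply_apply _ _).comp (stepPath p q k₀ k₁).continuous).mul
      (continuous_star.comp ((continuous_apply_apply _ _).comp (stepPath p q k₀ k₁).continuous))).smul
      ((continuous_apply_apply i i').comp (f.continuous.comp (xi p q k₀ k₁ w).continuous))⟩

end Step

/-! ### The sequence of stages -/

/-- The exponents: `pp i = 2 ^ (expo i).1`, `qq i = 3 ^ (expo i).2`. -/
def expo : ℕ → ℕ × ℕ
  | 0 => (2, 1)
  | i + 1 => ((expo i).1 + 2 * (expo i).2 + 1, (expo i).2 + (expo i).1)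

/-- `k₀` of step `i`. -/
def kl (i : ℕ) : ℕ := 2 ^ (2 * (expo i).2 + 1)

/-- `k₁` of step `i`. -/
def kr (i : ℕ) : ℕ := 3 ^ (expo i).1

/-- `p` of stage `i`. -/
def pp : ℕ → ℕ
  | 0 => 4
  | i + 1 => kl i * pp i

/-- `q` of stage `i`. -/
def qq : ℕ → ℕ
  | 0 => 3
  | i + 1 => kr i * qq i

variable (A : Type*) [CStarAlgebra A] [PartialOrder A] [StarOrderedRing A]

/-- `A` is isomorphic to the inductive limit of the stages `A ⊗ I(pp i, qq i)` along `step`:
there are compatible isometric unital star homomorphisms of the stages into `A` with dense union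
of ranges. -/
def IsZStable : Prop :=
  ∃ j : ∀ i, St A (pp i) (qq i) →⋆ₐ[ℂ] A,
    (∀ i f, ‖j i f‖ = ‖f‖) ∧
    (∀ i (f : St A (pp i) (qq i)),
      ∃ h : step (kl i) (kr i) (f : Amb A (pp i) (qq i)) ∈ St A (pp (i + 1)) (qq (i + 1)),
        j (i + 1) ⟨_, h⟩ = j i f) ∧
    Dense (⋃ i, Set.range (j i))

end Vale.Agent.P101.Lit
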