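import Vale.Agent.P101.Lit.Main
import Vale.Agent.P101.Lit.Plain
import Vale.Agent.P101.Lit.StageFacts

/-! P101: the entrywise statements follow from the bundled ones. -/

namespace Vale.Agent.P101.Lit

open scoped unitInterval ComplexOrder

theorem isZStablePlain_of_isZStable {A : Type*} [CStarAlgebra A] [PartialOrder A]
    [StarOrderedRing A] (h : IsZStable A) : IsZStablePlain A := by
  classical
  obtain ⟨j, hnorm, hstep, hd⟩ := h
  let J : ∀ i, Amb A (pp i) (qq i) → A :=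
    fun i f => if hf : f ∈ St A (pp i) (qq i) then j i ⟨f, hf⟩ else 0
  have hJ : ∀ i f (hf : InSt f), J i f = j i ⟨f, hf⟩ := fun i f hf => dif_pos hf
  refine ⟨J, fun i => ⟨fun f g h hf hg hh => ⟨fun e => ?_, fun e => ?_⟩,
    fun c f h hf hh => ⟨fun e => ?_, fun e => ?_⟩, fun f hf => ⟨fun e => ?_, ?_⟩⟩,
    fun i f hf => ?_, fun a r hr => ?_⟩
  · rw [hJ i h hh, hJ i f hf, hJ i g hg, ← map_add]
    exact congrArg (j i) (Subtype.ext (ContinuousMap.ext fun t => CStarMatrix.ext (e t)))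
  · rw [hJ i h hh, hJ i f hf, hJ i g hg, ← map_mul]
    refine congrArg (j i) (Subtype.ext (ContinuousMap.ext fun t => CStarMatrix.ext fun x y => ?_))
    exact (e t x y).trans (CStarMatrix.mul_apply (M := f t) (N := g t)).symm
  · rw [hJ i h hh, hJ i f hf, ← map_smul]
    exact congrArg (j i) (Subtype.ext (ContinuousMap.ext fun t => CStarMatrix.ext (e t)))
  · rw [hJ i h hh, hJ i f hf, ← map_star]
    exact congrArg (j i) (Subtype.ext (ContinuousMap.ext fun t => CStarMatrix.ext (e t)))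
  · rw [hJ i f hf, ← map_one (j i)]
    exact congrArg (j i) (Subtype.ext (ContinuousMap.ext fun t => CStarMatrix.ext fun x y =>
      (e t x y).trans CStarMatrix.one_apply.symm))
  · rw [hJ i f hf]
    exact hnorm i ⟨f, hf⟩
  · obtain ⟨hm, he⟩ := hstep i ⟨f, hf⟩
    exact ⟨hm, (hJ (i + 1) _ hm).trans (he.trans (hJ i f hf).symm)⟩
  · obtain ⟨y, hy, hay⟩ := Metric.mem_closure_iff.1 (hd a) r hr
    obtain ⟨i, f, rfl⟩ := Set.mem_iUnion.1 hy
    refine ⟨i, f.1, f.2, ?_⟩
    rw [hJ i f.1 f.2, norm_sub_rev]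
    rwa [dist_eq_norm] at hay

end Vale.Agent.P101.Lit
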