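import Vale.Agent.P101.Lit.Flip.Defs
import Vale.Agent.P101.Lit.Transfer.Eval
import Vale.Agent.P101.Lit.Transfer.DoubleFlip
import Vale.Agent.P101.Lit.Transfer.Core

/-! P101: a flip and a map into `F_ω(A)` give unitaries over `A`. -/

namespace Vale.Agent.P101.Lit

open scoped unitInterval ComplexOrder BoundedContinuousFunction
open Filter Topology

variable {A : Type*} [CStarAlgebra A] [PartialOrder A] [StarOrderedRing A] {ω : Ultrafilter ℕ}

set_option maxHeartbeats 800000 in
-- the instances of the stages over `F_ω(A)` are expensive to unify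
theorem exists_transfer {p q : ℕ} (ψ : St ℂ p q →⋆ₐ[ℂ] Fomega A ω) {G : Set (St ℂ p q)}
    (hG : G.Finite) {ε : ℝ} (hε : 0 < ε) {W : C(I × I, Mat2 p q)} (hW : IsFlip G ε W)
    (F : Finset A) :
    ∃ v ∈ unitary (St A p q),
      (∀ a ∈ F, ‖v * cst A p q a - cst A p q a * v‖ ≤ ε) ∧
      ∀ g ∈ G, ∃ c : A, ‖lift A p q g - v * cst A p q c * star v‖ ≤ 2 * ε := by
  let _ : PartialOrder (St ℂ p q) := CStarAlgebra.spectralOrder _
  have : StarOrderedRing (St ℂ p q) := CStarAlgebra.spectralOrderedRing _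
  let _ : PartialOrder (centralSeq A ω) := CStarAlgebra.spectralOrder _
  have : StarOrderedRing (centralSeq A ω) := CStarAlgebra.spectralOrderedRing _
  let _ : PartialOrder (Fomega A ω) := CStarAlgebra.spectralOrder _
  have : StarOrderedRing (Fomega A ω) := CStarAlgebra.spectralOrderedRing _
  obtain ⟨w, hwU, hwG⟩ := exists_double_flip hε.le hW
  have hV : mapSt ψ w ∈ unitary (St (Fomega A ω) p q) := mapSt_mem_unitary ψ hwU
  exact transfer_core (fomegaMk : centralSeq A ω →⋆ₐ[ℂ] Fomega A ω)
    (Ideal.Quotient.mk_surjective (R := centralSeq A ω)) (fun n => evalSeq n)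
    tendsto_of_fomegaMk_eq_zero (fun c a => c.2 a) hG ψ hε hV
    (fun g hg => push_double_flip ψ (hwG g hg)) F

end Vale.Agent.P101.Lit
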